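import Mathlib

/-! Sums over the splittings `u = p ++ y :: q` of a list, and words in a family. -/

set_option autoImplicit false

namespace Crest.Agent.R89

open Finset

variable {K L : Type*}

/-- Sum of `f p y q` over all ways of writing `u = p ++ y :: q`. -/
def ssum {M : Type*} [AddCommMonoid M] : List K → (List K → K → List K → M) → M
  | [], _ => 0
  | x :: u, f => f [] x u + ssum u (fun p y q => f (x :: p) y q)

section
variable {M M' : Type*} [AddCommMonoid M] [AddCommMonoid M']

@[simp] lemma ssum_nil (f : List K → K → List K → M) : ssum [] f = 0 := rfl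

lemma ssum_cons (x : K) (u : List K) (f : List K → K → List K → M) :
    ssum (x :: u) f = f [] x u + ssum u (fun p y q => f (x :: p) y q) := rfl

lemma ssum_congr {u : List K} {f g : List K → K → List K → M}
    (h : ∀ p y q, u = p ++ y :: q → f p y q = g p y q) : ssum u f = ssum u g := by
  induction u generalizing f g with
  | nil => rfl
  | cons x u ih =>
    rw [ssum_cons, ssum_cons, h [] x u rfl]
    congr 1
    exact ih fun p y q hu => h (x :: p) y q (by rw [hu]; rfl)

@[simp] lemma ssum_zero (u : List K) : ssum u (fun _ _ _ => (0 : M)) = 0 := by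
  induction u with
  | nil => rfl
  | cons x u ih => rw [ssum_cons, ih, add_zero]

lemma ssum_eq_zero {u : List K} {f : List K → K → List K → M}
    (h : ∀ p y q, u = p ++ y :: q → f p y q = 0) : ssum u f = 0 := by
  rw [ssum_congr h, ssum_zero]

lemma ssum_add (u : List K) (f g : List K → K → List K → M) :
    ssum u (fun p y q => f p y q + g p y q) = ssum u f + ssum u g := by
  induction u generalizing f g with
  | nil => simp
  | cons x u ih => simp only [ssum_cons]; rw [ih]; abel

lemma map_ssum {F : Type*} [FunLike F M M'] [AddMonoidHomClass F M M'] (φ : F) (u : List K)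
    (f : List K → K → List K → M) : φ (ssum u f) = ssum u (fun p y q => φ (f p y q)) := by
  induction u generalizing f with
  | nil => simp
  | cons x u ih => simp only [ssum_cons, map_add]; rw [ih]

lemma ssum_finset_sum {ι : Type*} (s : Finset ι) (u : List K) (f : ι → List K → K → List K → M) :
    ssum u (fun p y q => ∑ i ∈ s, f i p y q) = ∑ i ∈ s, ssum u (f i) := by
  induction u generalizing f with
  | nil => simp
  | cons x u ih => simp only [ssum_cons, Finset.sum_add_distrib]; rw [ih]

lemma ssum_list_sum {ι : Type*} (s : List ι) (u : List K) (f : ι → List K → K → List K → M) :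
    ssum u (fun p y q => (s.map fun i => f i p y q).sum) = (s.map fun i => ssum u (f i)).sum := by
  induction s with
  | nil => simp
  | cons a s ih => simp only [List.map_cons, List.sum_cons]; rw [ssum_add, ih]

lemma ssum_comm (u : List K) (w : List L) (f : List K → K → List K → List L → L → List L → M) :
    ssum u (fun p y q => ssum w (f p y q)) =
      ssum w (fun p' y' q' => ssum u (fun p y q => f p y q p' y' q')) := by
  induction u generalizing f with
  | nil => simp
  | cons x u ih => simp only [ssum_cons]; rw [ih, ssum_add]

lemma ssum_append (u w : List K) (f : List K → K → List K → M) :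
    ssum (u ++ w) f = ssum u (fun p y q => f p y (q ++ w)) + ssum w (fun p y q => f (u ++ p) y q) := by
  induction u generalizing f with
  | nil => simp
  | cons x u ih => simp only [List.cons_append, ssum_cons]; rw [ih, add_assoc]

lemma ssum_map (g : K → L) (u : List K) (f : List L → L → List L → M) :
    ssum (u.map g) f = ssum u (fun p y q => f (p.map g) (g y) (q.map g)) := by
  induction u generalizing f with
  | nil => simp
  | cons x u ih => simp only [List.map_cons, ssum_cons, List.map_nil]; rw [ih]

/-- Re-association of a double splitting. -/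
lemma ssum_assoc (u : List K) (f : List K → K → List K → K → List K → M) :
    ssum u (fun p y q => ssum q (fun p' y' q' => f p y p' y' q')) =
      ssum u (fun p y' q' => ssum p (fun p0 y p' => f p0 y p' y' q')) := by
  induction u generalizing f with
  | nil => simp
  | cons x u ih =>
    simp only [ssum_cons, ssum_nil, zero_add]
    rw [ih, ssum_add]

lemma ssum_eq_range [DecidableEq K] (i : K) (u : List K) (f : List K → List K → M) :
    ∑ k ∈ range u.length, (if u[k]? = some i then f (u.take k) (u.drop (k + 1)) else 0) =
      ssum u (fun p y q => if y = i then f p q else 0) := by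
  induction u generalizing f with
  | nil => simp
  | cons x u ih =>
    rw [List.length_cons, Finset.sum_range_succ', ssum_cons, add_comm]
    congr 1
    · simp
    · rw [← ih (fun p q => f (x :: p) q)]
      simp

lemma ssum_replicate (x : K) (n : ℕ) (f : List K → K → List K → M) :
    ssum (List.replicate (n + 1) x) f =
      ∑ ij ∈ antidiagonal n, f (List.replicate ij.1 x) x (List.replicate ij.2 x) := by
  induction n generalizing f with
  | zero => simp [ssum_cons]
  | succ n ih =>
    rw [List.replicate_succ, ssum_cons, ih, Finset.Nat.sum_antidiagonal_succ]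
    simp [List.replicate_succ]

end

section
variable {R : Type*} [NonUnitalNonAssocSemiring R]

lemma mul_ssum (c : R) (u : List K) (f : List K → K → List K → R) :
    c * ssum u f = ssum u (fun p y q => c * f p y q) :=
  map_ssum (AddMonoidHom.mulLeft c) u f

lemma ssum_mul (c : R) (u : List K) (f : List K → K → List K → R) :
    ssum u f * c = ssum u (fun p y q => f p y q * c) :=
  map_ssum (AddMonoidHom.mulRight c) u f

end

section
variable {M : Type*} [AddCommMonoid M] [PartialOrder M] [IsOrderedAddMonoid M]

lemma ssum_le_ssum {u : List K} {f g : List K → K → List K → M}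
    (h : ∀ p y q, u = p ++ y :: q → f p y q ≤ g p y q) : ssum u f ≤ ssum u g := by
  induction u generalizing f g with
  | nil => exact le_rfl
  | cons x u ih =>
    rw [ssum_cons, ssum_cons]
    exact add_le_add (h [] x u rfl) (ih fun p y q hu => h (x :: p) y q (by rw [hu]; rfl))

lemma ssum_nonneg {u : List K} {f : List K → K → List K → M}
    (h : ∀ p y q, u = p ++ y :: q → 0 ≤ f p y q) : 0 ≤ ssum u f := by
  rw [← ssum_zero (M := M) u]; exact ssum_le_ssum h

end

lemma norm_ssum_le {M : Type*} [SeminormedAddCommGroup M] (u : List K)
    (f : List K → K → List K → M) : ‖ssum u f‖ ≤ ssum u (fun p y q => ‖f p y q‖) := by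
  induction u generalizing f with
  | nil => simp
  | cons x u ih =>
    rw [ssum_cons, ssum_cons]
    exact (norm_add_le _ _).trans (add_le_add le_rfl (ih _))

lemma ssum_const (u : List K) (c : ℝ) : ssum u (fun _ _ _ => c) = u.length * c := by
  induction u with
  | nil => simp
  | cons x u ih => rw [ssum_cons, ih]; simp; ring

lemma tendsto_ssum {M α : Type*} [AddCommMonoid M] [TopologicalSpace M] [ContinuousAdd M]
    {l : Filter α} {u : List K} {f : α → List K → K → List K → M} {g : List K → K → List K → M}
    (h : ∀ p y q, u = p ++ y :: q → Filter.Tendsto (fun a => f a p y q) l (nhds (g p y q))) :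
    Filter.Tendsto (fun a => ssum u (f a)) l (nhds (ssum u g)) := by
  induction u generalizing f g with
  | nil => simpa using tendsto_const_nhds
  | cons x u ih =>
    simp only [ssum_cons]
    exact (h [] x u rfl).add (ih (f := fun a p y q => f a (x :: p) y q)
      fun p y q hu => h (x :: p) y q (by rw [hu]; rfl))

/-- The word `b_{u₁} ⋯ b_{u_k}`. -/
def wd {A : Type*} [Monoid A] (b : K → A) (u : List K) : A := (u.map b).prod

section
variable {A B : Type*} [Monoid A] [Monoid B] (b : K → A)

@[simp] lemma wd_nil : wd b [] = 1 := rfl
@[simp] lemma wd_cons (x : K) (u : List K) : wd b (x :: u) = b x * wd b u := by simp [wd]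
lemma wd_append (u w : List K) : wd b (u ++ w) = wd b u * wd b w := by simp [wd]
lemma wd_map (g : L → K) (u : List L) : wd b (u.map g) = wd (fun x => b (g x)) u := by
  simp [wd, Function.comp_def]
lemma map_wd {F : Type*} [FunLike F A B] [MonoidHomClass F A B] (φ : F) (u : List K) :
    φ (wd b u) = wd (fun x => φ (b x)) u := by
  simp [wd, map_list_prod, Function.comp_def]
lemma wd_replicate (x : K) (n : ℕ) : wd b (List.replicate n x) = b x ^ n := by simp [wd]
lemma wd_congr {b b' : K → A} {u : List K} (h : ∀ x ∈ u, b x = b' x) : wd b u = wd b' u := by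
  unfold wd; rw [List.map_congr_left h]

lemma star_wd [StarMul A] (hb : ∀ x, star (b x) = b x) (u : List K) :
    star (wd b u) = wd b u.reverse := by
  induction u with
  | nil => simp
  | cons x u ih => simp [wd_append, ih, hb]

end

lemma norm_wd_le {A : Type*} [SeminormedRing A] [NormOneClass A] (b : K → A) {R : ℝ}
    (hb : ∀ x, ‖b x‖ ≤ R) (u : List K) : ‖wd b u‖ ≤ R ^ u.length := by
  induction u with
  | nil => simp
  | cons x u ih =>
    rw [wd_cons, List.length_cons, pow_succ']
    exact (norm_mul_le _ _).trans (mul_le_mul (hb x) ih (norm_nonneg _)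
      ((norm_nonneg _).trans (hb x)))

/-- Leibniz rule along a word, for a two-sided derivation-like family of additive functionals. -/
lemma leibniz_wd {A M : Type*} [Monoid A] [AddCommGroup M] (E : A → A → A → M)
    (hE : ∀ x y a b, E x y (a * b) = E x (b * y) a + E (x * a) y b) (b : K → A) (u : List K)
    (x y : A) : E x y (wd b u) = ssum u (fun p k q => E (x * wd b p) (wd b q * y) (b k)) := by
  induction u generalizing x with
  | nil =>
    have := hE x y 1 1
    simp only [mul_one, one_mul] at this
    simpa using this
  | cons k u ih =>
    rw [wd_cons, hE, ih, ssum_cons]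
    simp [mul_assoc]

/-- The words of length `r`. -/
noncomputable def words (K : Type*) [Finite K] (r : ℕ) : Finset (List K) :=
  (List.finite_length_eq K r).toFinset

@[simp] lemma mem_words [Finite K] {r : ℕ} {v : List K} : v ∈ words K r ↔ v.length = r := by
  simp [words]

lemma sum_words_succ [Fintype K] {M : Type*} [AddCommMonoid M] (r : ℕ) (f : List K → M) :
    ∑ v ∈ words K (r + 1), f v = ∑ k, ∑ v ∈ words K r, f (k :: v) := by
  classical
  rw [← Finset.sum_product']
  symm
  refine Finset.sum_bij (fun p _ => p.1 :: p.2) ?_ ?_ ?_ ?_
  · intro p hp; simpa using hp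
  · intro p _ q _ h
    simp only [List.cons.injEq] at h
    exact Prod.ext h.1 h.2
  · intro v hv
    cases v with
    | nil => simp at hv
    | cons k v => exact ⟨(k, v), by simpa using hv, rfl⟩
  · intro p _; rfl

lemma words_zero [Finite K] : words K 0 = {[]} := by
  ext v; simp

lemma sum_words_wd [Fintype K] {A : Type*} [Semiring A] (b : K → A) (r : ℕ) :
    ∑ v ∈ words K r, wd b v = (∑ k, b k) ^ r := by
  induction r with
  | zero => simp [words_zero]
  | succ r ih =>
    rw [sum_words_succ, pow_succ', Finset.sum_mul]
    refine Finset.sum_congr rfl fun k _ => ?_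
    simp only [wd_cons]
    rw [← Finset.mul_sum, ih]

end Crest.Agent.R89
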