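import Mathlib
import Crest.Prelude.Def_CStarRep
import Crest.Agent.R89.Split

/-! The full Fock space model of a free semicircular family. -/

set_option autoImplicit false
set_option linter.unusedSectionVars false
set_option linter.deprecated false

open scoped InnerProductSpace ComplexConjugate

noncomputable section

namespace Crest.Agent.R89

/-- Interface to a free semicircular family `s` indexed by `I`: the trace `τ`, the coefficient
functionals `G v a = ⟪e_v, a Ω⟫` and the derivation-type functionals `E`. -/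
structure Model (I : Type) [DecidableEq I] (A : Type) [CStarAlgebra A] where
  τ : A →ₗ[ℂ] ℂ
  s : I → A
  G : List I → A →ₗ[ℂ] ℂ
  E : List I → I → A → A → A →ₗ[ℂ] ℂ
  faithful : Crest.OpAlg.IsFaithfulTracialState τ
  τ_star : ∀ a, τ (star a) = conj (τ a)
  τ_norm : ∀ a, ‖τ a‖ ≤ ‖a‖
  s_sa : ∀ i, star (s i) = s i
  G_nil : G [] = τ
  τ_s : ∀ i a, τ (s i * a) = G [i] a
  G_snoc : ∀ v i a, G (v ++ [i]) a = E v i 1 1 a
  E_mul : ∀ v i x y a b, E v i x y (a * b) = E v i x (b * y) a + E v i (x * a) y b
  E_s : ∀ v i x y j, E v i x y (s j) = if j = i then G v x * τ y else 0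
  bessel : ∀ (F : Finset (List I)) (a : A), ∑ v ∈ F, ‖G v a‖ ^ 2 ≤ (τ (star a * a)).re
  norm_sum : ∀ F : Finset I, ‖∑ i ∈ F, s i‖ ≤ 2 * Real.sqrt F.card
  free : ∀ {T : Type} (cls : I → T) (l : List (T × A)), l ≠ [] →
    l.IsChain (fun a b => a.1 ≠ b.1) →
    (∀ p ∈ l, p.2 ∈ Algebra.adjoin ℂ (s '' {i | cls i = p.1})) → (∀ p ∈ l, τ p.2 = 0) →
    τ (l.map Prod.snd).prod = 0

namespace Fock

variable {I : Type} [DecidableEq I] {H : Type} [NormedAddCommGroup H] [InnerProductSpace ℂ H]
  [CompleteSpace H] (e : HilbertBasis (List I) ℂ H)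

/-- The isometry induced by an injective map on words. -/
def iso (f : List I → List I) (hf : Function.Injective f) : H →L[ℂ] H :=
  (((e.orthonormal.comp f hf).orthogonalFamily.linearIsometry).comp
    e.repr.toLinearIsometry).toContinuousLinearMap

lemma iso_apply (f : List I → List I) (hf : Function.Injective f) (w : List I) :
    iso e f hf (e w) = e (f w) := by
  simp [iso, HilbertBasis.repr_self]

omit [DecidableEq I] [CompleteSpace H] in
lemma clm_ext {T T' : H →L[ℂ] H} (h : ∀ w, T (e w) = T' (e w)) : T = T' := by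
  refine ContinuousLinearMap.ext_on (s := Set.range e) ?_ ?_
  · rw [Submodule.dense_iff_topologicalClosure_eq_top]; exact e.dense_span
  · rintro _ ⟨w, rfl⟩; exact h w

omit [DecidableEq I] [CompleteSpace H] in
lemma vec_ext {x y : H} (h : ∀ w, ⟪e w, x⟫_ℂ = ⟪e w, y⟫_ℂ) : x = y := by
  apply e.repr.injective
  ext w
  rw [e.repr_apply_apply, e.repr_apply_apply, h]

omit [CompleteSpace H] in
lemma inner_e (v w : List I) : ⟪e v, e w⟫_ℂ = if v = w then 1 else 0 :=
  orthonormal_iff_ite.1 e.orthonormal v w

lemma inner_star_right (T : H →L[ℂ] H) (x y : H) : ⟪x, (star T) y⟫_ℂ = ⟪T x, y⟫_ℂ :=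
  ContinuousLinearMap.adjoint_inner_right T x y

lemma inner_star_left (T : H →L[ℂ] H) (x y : H) : ⟪(star T) x, y⟫_ℂ = ⟪x, T y⟫_ℂ :=
  ContinuousLinearMap.adjoint_inner_left T y x

lemma star_iso_self (f : List I → List I) (hf : Function.Injective f) (w : List I) :
    (star (iso e f hf)) (e (f w)) = e w := by
  refine vec_ext e fun v => ?_
  rw [inner_star_right, iso_apply, inner_e, inner_e]
  simp [hf.eq_iff]

lemma star_iso_not (f : List I → List I) (hf : Function.Injective f) (x : List I)
    (hx : ∀ w, f w ≠ x) : (star (iso e f hf)) (e x) = 0 := by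
  refine vec_ext e fun v => ?_
  rw [inner_star_right, iso_apply, inner_e, if_neg (hx v), inner_zero_right]

/-- Left creation. -/
def L (i : I) : H →L[ℂ] H := iso e (fun w => i :: w) (fun _ _ h => by simpa using h)

/-- Right multiplication by a word. -/
def Rr (x : List I) : H →L[ℂ] H := iso e (fun w => w ++ x) (fun _ _ h => by simpa using h)

lemma L_apply (i : I) (w : List I) : L e i (e w) = e (i :: w) := iso_apply _ _ _ _
lemma Rr_apply (x w : List I) : Rr e x (e w) = e (w ++ x) := iso_apply _ _ _ _
lemma star_L_nil (i : I) : (star (L e i)) (e []) = 0 := star_iso_not _ _ _ _ (by simp)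
lemma star_L_cons (i j : I) (w : List I) :
    (star (L e i)) (e (j :: w)) = if i = j then e w else 0 := by
  split_ifs with h
  · subst h; exact star_iso_self e (fun w => i :: w) _ w
  · exact star_iso_not _ _ _ _ (by simp [h])
lemma star_Rr_self (x w : List I) : (star (Rr e x)) (e (w ++ x)) = e w :=
  star_iso_self e (fun w => w ++ x) _ w
lemma star_Rr_not (x y : List I) (h : ∀ w, w ++ x ≠ y) : (star (Rr e x)) (e y) = 0 :=
  star_iso_not _ _ _ _ h
lemma star_Rr_nil (j : I) : (star (Rr e [j])) (e []) = 0 := star_Rr_not _ _ _ (by simp)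
lemma star_Rr_snoc (j k : I) (w : List I) :
    (star (Rr e [j])) (e (w ++ [k])) = if j = k then e w else 0 := by
  split_ifs with h
  · subst h; exact star_Rr_self e _ w
  · exact star_Rr_not _ _ _ (by simp [h])

/-- The semicircular field operator. -/
def s (i : I) : H →L[ℂ] H := L e i + star (L e i)

/-- The right field operator. -/
def r (i : I) : H →L[ℂ] H := Rr e [i] + star (Rr e [i])

/-- The vacuum projection. -/
def P : H →L[ℂ] H := InnerProductSpace.rankOne ℂ (e []) (e [])

omit [DecidableEq I] [CompleteSpace H] in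
lemma P_apply (x : H) : P e x = ⟪e [], x⟫_ℂ • e [] := rfl

omit [DecidableEq I] in
lemma star_P : star (P e) = P e := by
  refine clm_ext e fun w => vec_ext e fun v => ?_
  rw [inner_star_right, P_apply, P_apply, inner_smul_left, inner_smul_right, inner_conj_symm,
    mul_comm]

lemma star_s (i : I) : star (s e i) = s e i := by simp [s, add_comm]
lemma star_r (i : I) : star (r e i) = r e i := by simp [r, add_comm]

lemma L_mul_Rr (i : I) (x : List I) : L e i * Rr e x = Rr e x * L e i := by
  refine clm_ext e fun w => ?_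
  simp [Rr_apply, L_apply]

lemma comm_rho (j i : I) :
    star (Rr e [j]) * s e i - s e i * star (Rr e [j]) = if i = j then P e else 0 := by
  have h1 : star (Rr e [j]) * star (L e i) = star (L e i) * star (Rr e [j]) := by
    rw [← star_mul, ← star_mul, L_mul_Rr]
  have h2 : star (Rr e [j]) * L e i - L e i * star (Rr e [j]) = if i = j then P e else 0 := by
    refine clm_ext e fun w => ?_
    rcases List.eq_nil_or_concat w with rfl | ⟨w, k, rfl⟩
    · have := star_Rr_snoc e j i []
      simp only [List.nil_append] at this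
      by_cases h : i = j
      · subst h; simp [L_apply, star_Rr_nil, this, P_apply, e.orthonormal.1 []]
      · simp [L_apply, star_Rr_nil, this, h, Ne.symm h]
    · have := star_Rr_snoc e j k (i :: w)
      simp only [List.cons_append] at this
      simp only [List.concat_eq_append, ContinuousLinearMap.sub_apply,
        ContinuousLinearMap.mul_apply, L_apply, this, star_Rr_snoc]
      split_ifs <;> simp [L_apply, P_apply, inner_e]
  rw [s, mul_add, add_mul, h1, ← h2]; abel

lemma s_comm_r (i j : I) : s e i * r e j = r e j * s e i := by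
  have h1 := comm_rho e j i
  have h2 : s e i * Rr e [j] - Rr e [j] * s e i = if i = j then P e else 0 := by
    have := congrArg star h1
    simp only [star_sub, star_mul, star_star, star_s] at this
    rw [this]; split_ifs <;> simp [star_P]
  rw [r, mul_add, add_mul, ← sub_eq_zero]
  have : s e i * Rr e [j] + s e i * star (Rr e [j]) - (Rr e [j] * s e i + star (Rr e [j]) * s e i)
      = (s e i * Rr e [j] - Rr e [j] * s e i) -
        (star (Rr e [j]) * s e i - s e i * star (Rr e [j])) := by abel
  rw [this, h1, h2, sub_self]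

lemma s_comm_Rr (i : I) (x : List I) (hx : x.head? ≠ some i) :
    s e i * Rr e x = Rr e x * s e i := by
  rw [s, add_mul, mul_add, L_mul_Rr]
  congr 1
  refine clm_ext e fun w => ?_
  cases w with
  | nil =>
    cases x with
    | nil => simp [Rr_apply, star_L_nil]
    | cons k x =>
      have : i ≠ k := fun h => hx (by simp [h])
      simp [Rr_apply, star_L_nil, star_L_cons, this]
  | cons k w =>
    by_cases h : i = k <;> simp [Rr_apply, star_L_cons, h]

lemma s_vac (i : I) : s e i (e []) = e [i] := by simp [s, L_apply, star_L_nil]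
lemma r_vac (i : I) : r e i (e []) = e [i] := by simp [r, Rr_apply, star_Rr_nil]

lemma norm_sum_s (F : Finset I) : ‖∑ i ∈ F, s e i‖ ≤ 2 * Real.sqrt F.card := by
  have hLL : ∀ i j, star (L e i) * L e j = if i = j then 1 else 0 := by
    intro i j
    refine clm_ext e fun w => ?_
    by_cases h : i = j <;> simp [L_apply, star_L_cons, h]
  have h1 : star (∑ i ∈ F, L e i) * (∑ i ∈ F, L e i) = (F.card : ℂ) • (1 : H →L[ℂ] H) := by
    rw [star_sum, Finset.sum_mul_sum]
    simp only [hLL]
    rw [Finset.sum_congr rfl fun i hi => by rw [Finset.sum_ite_eq, if_pos hi]]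
    simp [Algebra.smul_def]
  have h2 : ‖∑ i ∈ F, L e i‖ ≤ Real.sqrt F.card := by
    apply Real.le_sqrt_of_sq_le
    rw [sq, ← CStarRing.norm_star_mul_self, h1, norm_smul]
    have h3 : ‖(1 : H →L[ℂ] H)‖ ≤ 1 := ContinuousLinearMap.norm_id_le
    simpa using mul_le_mul_of_nonneg_left h3 (Nat.cast_nonneg (α := ℝ) F.card)
  simp only [s, Finset.sum_add_distrib, ← star_sum]
  refine (norm_add_le _ _).trans ?_
  rw [norm_star]; linarith

/-- The C⋆-algebra generated by the field operators. -/
def Alg : StarSubalgebra ℂ (H →L[ℂ] H) :=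
  (StarAlgebra.adjoin ℂ (Set.range (s e))).topologicalClosure

instance : IsClosed (Alg e : Set (H →L[ℂ] H)) := StarSubalgebra.isClosed_topologicalClosure _

lemma s_mem (i : I) : s e i ∈ Alg e :=
  StarSubalgebra.le_topologicalClosure _ (StarAlgebra.subset_adjoin ℂ _ ⟨i, rfl⟩)

lemma comm_r {a : H →L[ℂ] H} (ha : a ∈ Alg e) (j : I) : a * r e j = r e j * a := by
  have : Alg e ≤ StarSubalgebra.centralizer ℂ {r e j} := by
    refine StarSubalgebra.topologicalClosure_minimal ?_ (Set.isClosed_centralizer _)
    refine StarAlgebra.adjoin_le ?_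
    rintro _ ⟨i, rfl⟩
    simp only [SetLike.mem_coe, StarSubalgebra.mem_centralizer_iff, Set.mem_singleton_iff,
      forall_eq, star_r, and_self]
    exact (s_comm_r e i j).symm
  have h := this ha
  simp only [StarSubalgebra.mem_centralizer_iff, Set.mem_singleton_iff, forall_eq] at h
  exact h.1.symm

/-- Matrix coefficient against the vacuum. -/
def ev (v : List I) : (H →L[ℂ] H) →L[ℂ] ℂ :=
  (innerSL ℂ (e v)).comp (ContinuousLinearMap.apply ℂ H (e []))

omit [DecidableEq I] [CompleteSpace H] in
lemma ev_apply (v : List I) (T : H →L[ℂ] H) : ev e v T = ⟪e v, T (e [])⟫_ℂ := rfl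

omit [DecidableEq I] in
lemma ev_star (T : H →L[ℂ] H) : ev e [] (star T) = conj (ev e [] T) := by
  rw [ev_apply, ev_apply, inner_star_right, inner_conj_symm]

lemma ev_s_mul (i : I) (T : H →L[ℂ] H) : ev e [] (s e i * T) = ev e [i] T := by
  rw [ev_apply, ev_apply, ContinuousLinearMap.mul_apply, ← inner_star_left, star_s, s_vac]

lemma ev_mul_s (i : I) {T : H →L[ℂ] H} (hT : T ∈ Alg e) : ev e [] (T * s e i) = ev e [i] T := by
  rw [ev_apply, ev_apply, ContinuousLinearMap.mul_apply, s_vac, ← r_vac,
    ← ContinuousLinearMap.mul_apply, comm_r e hT, ContinuousLinearMap.mul_apply,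
    ← inner_star_left, star_r]

lemma ev_comm {b : H →L[ℂ] H} (hb : b ∈ Alg e) :
    ∀ a ∈ Alg e, ev e [] (b * a) = ev e [] (a * b) := by
  have hle : StarAlgebra.adjoin ℂ (Set.range (s e)) ≤ Alg e :=
    StarSubalgebra.le_topologicalClosure _
  have h0 : ∀ b ∈ StarAlgebra.adjoin ℂ (Set.range (s e)),
      ∀ a ∈ Alg e, ev e [] (b * a) = ev e [] (a * b) := by
    intro b hb
    induction hb using StarAlgebra.adjoin_induction with
    | mem x hx =>
      obtain ⟨i, rfl⟩ := hx
      intro a ha
      rw [ev_s_mul, ev_mul_s e i ha]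
    | algebraMap c => intro a _; rw [Algebra.commutes]
    | add x y _ _ hx hy => intro a ha; rw [add_mul, mul_add, map_add, map_add, hx a ha, hy a ha]
    | mul x y hx' hy' hx hy =>
      intro a ha
      rw [mul_assoc, hx _ (mul_mem (hle hy') ha), mul_assoc, hy _ (mul_mem ha (hle hx')),
        mul_assoc]
    | star x _ hx =>
      intro a ha
      have := congrArg conj (hx (star a) (star_mem ha))
      rw [← ev_star, ← ev_star, star_mul, star_mul, star_star] at this
      exact this.symm
  intro a ha
  have hcl : IsClosed {b : H →L[ℂ] H | ev e [] (b * a) = ev e [] (a * b)} :=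
    isClosed_eq (by fun_prop) (by fun_prop)
  have hb' : b ∈ closure (StarAlgebra.adjoin ℂ (Set.range (s e)) : Set (H →L[ℂ] H)) := hb
  exact closure_minimal (fun b hb => h0 b hb a ha) hcl hb'

lemma eq_zero_of_vac {a : H →L[ℂ] H} (ha : a ∈ Alg e) (h : a (e []) = 0) : a = 0 := by
  have key : ∀ n (w : List I), w.length < n → a (e w) = 0 := by
    intro n
    induction n with
    | zero => intro w hw; omega
    | succ n ih =>
      intro w hw
      rcases List.eq_nil_or_concat w with rfl | ⟨w, j, rfl⟩
      · exact h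
      · simp only [List.concat_eq_append, List.length_append, List.length_singleton] at hw ⊢
        have h1 : e (w ++ [j]) = r e j (e w) - (star (Rr e [j])) (e w) := by
          simp [r, Rr_apply]
        have h2 : a ((star (Rr e [j])) (e w)) = 0 := by
          rcases List.eq_nil_or_concat w with rfl | ⟨w, k, rfl⟩
          · rw [star_Rr_nil, map_zero]
          · simp only [List.concat_eq_append, List.length_append, List.length_singleton] at hw ⊢
            rw [star_Rr_snoc]
            split_ifs
            · exact ih w (by omega)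
            · exact map_zero _
        rw [h1, map_sub, h2, sub_zero, ← ContinuousLinearMap.mul_apply, comm_r e ha,
          ContinuousLinearMap.mul_apply, ih w (by omega), map_zero]
  exact clm_ext e fun w => key _ w (Nat.lt_succ_self _)

omit [DecidableEq I] in
lemma ev_star_mul_self (T : H →L[ℂ] H) : ev e [] (star T * T) = (‖T (e [])‖ ^ 2 : ℝ) := by
  rw [ev_apply, ContinuousLinearMap.mul_apply, inner_star_right, inner_self_eq_norm_sq_to_K]
  simp

omit [DecidableEq I] [CompleteSpace H] in
lemma ev_P (v : List I) (x y : H →L[ℂ] H) : ev e v (x * P e * y) = ev e v x * ev e [] y := by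
  simp only [ev_apply, ContinuousLinearMap.mul_apply, P_apply, map_smul, inner_smul_right]
  ring

lemma ev_snoc (v : List I) (i : I) (T : H →L[ℂ] H) :
    ev e (v ++ [i]) T = ev e v (star (Rr e [i]) * T - T * star (Rr e [i])) := by
  simp only [ev_apply, ContinuousLinearMap.sub_apply, ContinuousLinearMap.mul_apply, star_Rr_nil,
    map_zero, sub_zero]
  rw [inner_star_right, Rr_apply]

section free
variable {T : Type} (cls : I → T)

/-- Words not starting with a letter of class `t`. -/
def KW (t : T) (x : List I) : Prop := ∀ i, x.head? = some i → cls i ≠ t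

lemma compress_basis (t : T) (a : H →L[ℂ] H)
    (h1 : ∀ x, KW cls t x → a * Rr e x = Rr e x * a)
    (h2 : ∀ x, KW cls t x → star a * Rr e x = Rr e x * star a)
    {x y : List I} (hx : KW cls t x) (hy : KW cls t y) :
    ⟪e y, a (e x)⟫_ℂ = if x = y then ev e [] a else 0 := by
  have hx0 : e x = Rr e x (e []) := by rw [Rr_apply]; simp
  rw [hx0, ← ContinuousLinearMap.mul_apply, h1 x hx, ContinuousLinearMap.mul_apply,
    ← inner_star_left]
  by_cases h : ∃ w, w ++ x = y
  · obtain ⟨w, rfl⟩ := h
    rw [star_Rr_self]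
    cases w with
    | nil => simp [ev_apply]
    | cons k w =>
      have hne : x ≠ k :: w ++ x := fun h => by
        have := congrArg List.length h
        simp at this; omega
      have hw : KW cls t (k :: w) := fun i hi => hy i (by simpa using hi)
      have hw0 : e (k :: w) = Rr e (k :: w) (e []) := by rw [Rr_apply]; simp
      rw [if_neg hne, ← inner_star_left, hw0, ← ContinuousLinearMap.mul_apply, h2 _ hw,
        ContinuousLinearMap.mul_apply, ← inner_star_right, star_Rr_not _ _ _ (by simp),
        inner_zero_right]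
  · push Not at h
    rw [star_Rr_not _ _ _ h, inner_zero_left, if_neg]
    rintro rfl
    exact h [] rfl

lemma compress (t : T) (a : H →L[ℂ] H)
    (h1 : ∀ x, KW cls t x → a * Rr e x = Rr e x * a)
    (h2 : ∀ x, KW cls t x → star a * Rr e x = Rr e x * star a)
    {ξ : H} (hξ : ∀ x, ¬ KW cls t x → ⟪e x, ξ⟫_ℂ = 0) {y : List I} (hy : KW cls t y) :
    ⟪e y, a ξ⟫_ℂ = ev e [] a * ⟪e y, ξ⟫_ℂ := by
  have hs := (e.hasSum_repr ξ).mapL ((innerSL ℂ (e y)).comp a)
  simp only [ContinuousLinearMap.comp_apply, map_smul, innerSL_apply_apply, smul_eq_mul,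
    HilbertBasis.repr_apply_apply] at hs
  refine hs.unique ?_
  suffices h : (fun b => ⟪e b, ξ⟫_ℂ * ⟪e y, a (e b)⟫_ℂ) =
      fun x => if x = y then ev e [] a * ⟪e y, ξ⟫_ℂ else 0 by
    rw [h]; exact hasSum_ite_eq y _
  funext x
  by_cases hx : KW cls t x
  · rw [compress_basis e cls t a h1 h2 hx hy]
    split_ifs with h
    · subst h; ring
    · simp
  · rw [hξ x hx, zero_mul, if_neg]
    rintro rfl; exact hx hy

end free

/-- The generators as elements of the C⋆-algebra. -/
def sA (i : I) : Alg e := ⟨s e i, s_mem e i⟩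

lemma comm_of_mem {T : Type} (cls : I → T) (t : T) {a : Alg e}
    (ha : a ∈ Algebra.adjoin ℂ (sA e '' {i | cls i = t})) :
    (∀ x, KW cls t x → (a : H →L[ℂ] H) * Rr e x = Rr e x * a) ∧
    (∀ x, KW cls t x → star (a : H →L[ℂ] H) * Rr e x = Rr e x * star (a : H →L[ℂ] H)) := by
  induction ha using Algebra.adjoin_induction with
  | mem x hx =>
    obtain ⟨i, hi, rfl⟩ := hx
    have : ∀ x, KW cls t x → s e i * Rr e x = Rr e x * s e i := fun x hx =>
      s_comm_Rr e i x fun h => hx i h hi
    exact ⟨this, by simpa [sA, star_s] using this⟩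
  | algebraMap c =>
    refine ⟨fun x _ => ?_, fun x _ => ?_⟩
    · exact Algebra.commutes c _
    · have : star ((algebraMap ℂ (Alg e) c : Alg e) : H →L[ℂ] H) = algebraMap ℂ _ (star c) :=
        (algebraMap_star_comm c).symm
      rw [this]; exact Algebra.commutes _ _
  | add x y _ _ hx hy =>
    refine ⟨fun w hw => ?_, fun w hw => ?_⟩
    · simp only [AddMemClass.coe_add, add_mul, mul_add, hx.1 w hw, hy.1 w hw]
    · simp only [AddMemClass.coe_add, star_add, add_mul, mul_add, hx.2 w hw, hy.2 w hw]
  | mul x y _ _ hx hy =>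
    refine ⟨fun w hw => ?_, fun w hw => ?_⟩
    · simp only [MulMemClass.coe_mul]
      rw [mul_assoc, hy.1 w hw, ← mul_assoc, hx.1 w hw, mul_assoc]
    · simp only [MulMemClass.coe_mul, star_mul]
      rw [mul_assoc, hx.2 w hw, ← mul_assoc, hy.2 w hw, mul_assoc]

lemma free_vec {T : Type} (cls : I → T) (p : T × Alg e) (l : List (T × Alg e))
    (hc : (p :: l).IsChain (fun a b => a.1 ≠ b.1))
    (hm : ∀ q ∈ p :: l, q.2 ∈ Algebra.adjoin ℂ (sA e '' {i | cls i = q.1}))
    (h0 : ∀ q ∈ p :: l, ev e [] (q.2 : H →L[ℂ] H) = 0) :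
    ∀ y, KW cls p.1 y →
      ⟪e y, ((((p :: l).map Prod.snd).prod : Alg e) : H →L[ℂ] H) (e [])⟫_ℂ = 0 := by
  induction l generalizing p with
  | nil =>
    intro y hy
    obtain ⟨h1, h2⟩ := comm_of_mem e cls p.1 (hm p (by simp))
    simp only [List.map_cons, List.map_nil, List.prod_cons, List.prod_nil, mul_one]
    rw [compress e cls p.1 _ h1 h2 _ hy, h0 p (by simp), zero_mul]
    intro x hx
    rw [inner_e, if_neg]
    rintro rfl
    exact hx (by simp [KW])
  | cons q l ih =>
    intro y hy
    obtain ⟨h1, h2⟩ := comm_of_mem e cls p.1 (hm p (by simp))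
    rw [List.isChain_cons_cons] at hc
    have ih' := ih q hc.2 (fun z hz => hm z (List.mem_cons_of_mem _ hz))
      (fun z hz => h0 z (List.mem_cons_of_mem _ hz))
    rw [List.map_cons, List.prod_cons, MulMemClass.coe_mul, ContinuousLinearMap.mul_apply,
      compress e cls p.1 _ h1 h2 _ hy, h0 p (by simp), zero_mul]
    intro x hx
    refine ih' x fun i hi hq => hx fun j hj hp => ?_
    rw [hi] at hj
    cases hj
    exact hc.1 (hp.symm.trans hq)

/-- The Fock model. -/
def model : Model I (Alg e) where
  τ := (ev e []).toLinearMap ∘ₗ (Alg e).subtype.toLinearMap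
  s := sA e
  G v := (ev e v).toLinearMap ∘ₗ (Alg e).subtype.toLinearMap
  E v i x y :=
    { toFun := fun a => ev e v ((x : H →L[ℂ] H) *
        (star (Rr e [i]) * a - a * star (Rr e [i])) * y)
      map_add' := fun a b => by
        rw [← map_add]; congr 1
        simp only [AddMemClass.coe_add]; noncomm_ring
      map_smul' := fun c a => by
        rw [RingHom.id_apply, ← map_smul]; congr 1
        simp only [SetLike.val_smul, mul_smul_comm, smul_mul_assoc, ← smul_sub] }
  faithful := by
    refine ⟨?_, fun a => ?_, fun a h => ?_, fun a b => ?_⟩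
    · change ev e [] 1 = 1
      simp [ev_apply, e.orthonormal.1 []]
    · change (ev e [] (star (a : H →L[ℂ] H) * a)).im = 0 ∧
        0 ≤ (ev e [] (star (a : H →L[ℂ] H) * a)).re
      rw [ev_star_mul_self, Complex.ofReal_im, Complex.ofReal_re]
      exact ⟨rfl, by positivity⟩
    · change ev e [] (star (a : H →L[ℂ] H) * a) = 0 at h
      rw [ev_star_mul_self] at h
      have h' : (a : H →L[ℂ] H) (e []) = 0 := by simpa using h
      exact Subtype.ext (eq_zero_of_vac e a.2 h')
    · exact ev_comm e a.2 b b.2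
  τ_star a := ev_star e a
  τ_norm a := by
    change ‖⟪e [], (a : H →L[ℂ] H) (e [])⟫_ℂ‖ ≤ ‖(a : H →L[ℂ] H)‖
    have h1 : ‖e []‖ = 1 := e.orthonormal.1 []
    calc _ ≤ ‖e []‖ * ‖(a : H →L[ℂ] H) (e [])‖ := norm_inner_le_norm _ _
      _ ≤ ‖e []‖ * (‖(a : H →L[ℂ] H)‖ * ‖e []‖) := by
        gcongr; exact ContinuousLinearMap.le_opNorm _ _
      _ = _ := by rw [h1]; ring
  s_sa i := Subtype.ext (star_s e i)
  G_nil := rfl
  τ_s i a := ev_s_mul e i a
  G_snoc v i a := by
    change ev e (v ++ [i]) a = ev e v (1 * _ * 1)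
    rw [one_mul, mul_one, ev_snoc]
  E_mul v i x y a b := by
    simp only [LinearMap.coe_mk, AddHom.coe_mk]
    rw [← map_add]; congr 1
    simp only [MulMemClass.coe_mul]; noncomm_ring
  E_s v i x y j := by
    simp only [LinearMap.coe_mk, AddHom.coe_mk]
    change ev e v (_ * (_ * s e j - s e j * _) * _) = _
    rw [comm_rho]
    split_ifs
    · exact ev_P e v x y
    · simp
  bessel F a := by
    change ∑ v ∈ F, ‖⟪e v, (a : H →L[ℂ] H) (e [])⟫_ℂ‖ ^ 2 ≤
      (ev e [] (star (a : H →L[ℂ] H) * a)).re
    rw [ev_star_mul_self, Complex.ofReal_re]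
    exact e.orthonormal.sum_inner_products_le _
  norm_sum F := by
    have : ‖∑ i ∈ F, sA e i‖ = ‖((∑ i ∈ F, sA e i : Alg e) : H →L[ℂ] H)‖ := rfl
    rw [this, AddSubmonoidClass.coe_finset_sum]
    exact norm_sum_s e F
  free cls l hl hc hm h0 := by
    cases l with
    | nil => exact absurd rfl hl
    | cons p l => exact free_vec e cls p l hc hm h0 [] (by simp [KW])

end Fock

theorem exists_model (I : Type) [DecidableEq I] :
    ∃ (A : Type) (_ : CStarAlgebra A), Nonempty (Model I A) :=
  ⟨_, _, ⟨Fock.model (default : HilbertBasis (List I) ℂ (lp (fun _ : List I => ℂ) 2))⟩⟩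

end Crest.Agent.R89
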