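import Mathlib
import Crest.Agent.R89.Fock

/-! Schwinger–Dyson recursions and the free Schramm–Wein bound. -/

set_option autoImplicit false
set_option linter.unusedSectionVars false

open scoped ComplexConjugate ComplexOrder

noncomputable section

namespace Crest.Agent.R89

namespace Model

section basic
variable {I : Type} [DecidableEq I] {A : Type} [CStarAlgebra A] (m : Model I A)

lemma τ_one : m.τ 1 = 1 := m.faithful.1
lemma τ_comm (a b : A) : m.τ (a * b) = m.τ (b * a) := m.faithful.2.2.2 a b
lemma τ_pos (a : A) : 0 ≤ (m.τ (star a * a)).re := (m.faithful.2.1 a).2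

include m in
lemma nontrivial : Nontrivial A := by
  refine ⟨⟨1, 0, fun h => ?_⟩⟩
  have := m.τ_one
  rw [h, map_zero] at this
  exact zero_ne_one this

lemma norm_s (i : I) : ‖m.s i‖ ≤ 2 := by simpa using m.norm_sum {i}

lemma E_wd {K : Type*} (v : List I) (i : I) (b : K → A) (u : List K) (x y : A) :
    m.E v i x y (wd b u) = ssum u (fun p k q => m.E v i (x * wd b p) (wd b q * y) (b k)) :=
  leibniz_wd (fun x y a => m.E v i x y a) (m.E_mul v i) b u x y

lemma E_wd_s {K : Type*} (v : List I) (i : I) (g : K → I) (u : List K) (x y : A) :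
    m.E v i x y (wd (fun k => m.s (g k)) u) = ssum u (fun p k q => if g k = i then
      m.G v (x * wd (fun k => m.s (g k)) p) * m.τ (wd (fun k => m.s (g k)) q * y) else 0) := by
  rw [E_wd]; simp only [m.E_s]

lemma τ_s_mul (i : I) (a : A) : m.τ (m.s i * a) = m.E [] i 1 1 a := by
  rw [m.τ_s, ← m.G_snoc]; rfl

/-- The Schwinger–Dyson equation. -/
lemma SD {K : Type*} (i : I) (g : K → I) (u : List K) :
    m.τ (m.s i * wd (fun k => m.s (g k)) u) = ssum u (fun p k q => if g k = i then
      m.τ (wd (fun k => m.s (g k)) p) * m.τ (wd (fun k => m.s (g k)) q) else 0) := by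
  rw [τ_s_mul, E_wd_s]; simp [m.G_nil]

lemma τ_wd_nonneg {K : Type*} (g : K → I) (u : List K) :
    0 ≤ m.τ (wd (fun k => m.s (g k)) u) := by
  induction h : u.length using Nat.strong_induction_on generalizing u with
  | _ n ih =>
    cases u with
    | nil => simp [m.τ_one]
    | cons x u =>
      rw [wd_cons, SD]
      refine ssum_nonneg fun p y q hu => ?_
      subst hu h
      split_ifs
      · exact mul_nonneg (ih _ (by simp) p rfl) (ih _ (by simp; omega) q rfl)
      · exact le_rfl

lemma one_le_τ_rev {K : Type*} (g : K → I) (u : List K) :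
    1 ≤ m.τ (wd (fun k => m.s (g k)) (u ++ u.reverse)) := by
  induction u with
  | nil => simp [m.τ_one]
  | cons x u ih =>
    rw [List.reverse_cons, List.cons_append, wd_cons, SD, ← List.append_assoc, ssum_append]
    refine le_add_of_nonneg_of_le (ssum_nonneg fun p y q _ => ?_) ?_
    · split_ifs
      · exact mul_nonneg (m.τ_wd_nonneg g _) (m.τ_wd_nonneg g _)
      · exact le_rfl
    · simpa [ssum_cons, m.τ_one] using ih

end basic

end Model

section conv
variable {J : Type*}

/-- Concatenation product with a letter in the middle. -/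
def conv (j : J) (f g : List J →₀ ℂ) : List J →₀ ℂ :=
  f.sum fun v1 a => g.sum fun v2 b => Finsupp.single (v1 ++ j :: v2) (a * b)

/-- Pairing of a finitely supported coefficient family with a function on words. -/
def pair (φ : List J → ℂ) : (List J →₀ ℂ) →ₗ[ℂ] ℂ := Finsupp.linearCombination ℂ φ

lemma pair_apply (φ : List J → ℂ) (f : List J →₀ ℂ) :
    pair φ f = ∑ v ∈ f.support, f v * φ v := rfl

lemma pair_single (φ : List J → ℂ) (v : List J) (a : ℂ) :
    pair φ (Finsupp.single v a) = a * φ v := Finsupp.linearCombination_single ℂ a v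

variable [DecidableEq J]

/-- The coproduct property. -/
def Coprod (Φ : List J → List J → ℂ) : Prop :=
  ∀ u v1 j v2, Φ u (v1 ++ j :: v2) = ssum u (fun p k q => if k = j then Φ p v1 * Φ q v2 else 0)

lemma pair_conv {Φ : List J → List J → ℂ} (h : Coprod Φ) (u : List J) (j : J)
    (f g : List J →₀ ℂ) : pair (Φ u) (conv j f g) =
      ssum u (fun p k q => if k = j then pair (Φ p) f * pair (Φ q) g else 0) := by
  simp only [conv, Finsupp.sum, map_sum, pair_single, h u]
  simp only [mul_ssum, ← ssum_finset_sum]
  refine ssum_congr fun p k q _ => ?_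
  split_ifs
  · rw [pair_apply, pair_apply, Finset.sum_mul_sum]
    refine Finset.sum_congr rfl fun _ _ => Finset.sum_congr rfl fun _ _ => by ring
  · simp

lemma coprod_delta : Coprod (fun (u v : List J) => if v = u then (1 : ℂ) else 0) := by
  intro u v1 j v2
  induction u generalizing v1 with
  | nil => simp
  | cons x u ih =>
    rw [ssum_cons]
    cases v1 with
    | nil =>
      rw [ssum_eq_zero (fun p y q _ => by simp)]
      by_cases h : x = j
      · subst h; simp
      · simp [h, Ne.symm h]
    | cons y v1 =>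
      by_cases h : y = x
      · subst h
        have := ih v1
        simp only [List.cons_append, List.cons.injEq, true_and, reduceCtorEq, if_false, zero_mul,
          ite_self, zero_add] at this ⊢
        exact this
      · rw [ssum_eq_zero (fun p y q _ => by simp [h])]
        simp [h]

lemma pair_delta (u : List J) (f : List J →₀ ℂ) :
    pair (fun v => if v = u then (1 : ℂ) else 0) f = f u := by
  rw [pair_apply]
  simp only [mul_ite, mul_one, mul_zero, Finset.sum_ite_eq']
  split_ifs with h
  · rfl
  · exact (Finsupp.notMem_support_iff.1 h).symm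

lemma coprod_of_snoc {Φ : List J → List J → ℂ}
    (h : ∀ u v j, Φ u (v ++ [j]) = ssum u (fun p k q => if k = j then Φ p v * Φ q [] else 0)) :
    Coprod Φ := by
  intro u v1 j v2
  induction v2 using List.reverseRecOn generalizing u with
  | nil => exact h u v1 j
  | append_singleton v2 i ih =>
    rw [← List.cons_append, ← List.append_assoc, h]
    simp only [ih, h]
    have h1 := ssum_assoc u (fun p0 y p' y' q' =>
      if y = j then (if y' = i then Φ p0 v1 * Φ p' v2 * Φ q' [] else 0) else 0)
    refine Eq.trans (Eq.trans (ssum_congr fun p y q _ => ?_) h1.symm) (ssum_congr fun p y q _ => ?_)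
    · by_cases hy : y = i
      · simp only [hy, if_true, ssum_mul]
        refine ssum_congr fun _ y' _ _ => ?_
        split_ifs <;> simp
      · simp [hy]
    · by_cases hy : y = j
      · simp only [hy, if_true, mul_ssum]
        refine ssum_congr fun _ y' _ _ => ?_
        split_ifs <;> simp [mul_assoc]
      · simp [hy]

end conv

lemma norm_list_sum_le {M : Type*} [SeminormedAddCommGroup M] (l : List M) :
    ‖l.sum‖ ≤ (l.map fun x => ‖x‖).sum := by
  induction l with
  | nil => simp
  | cons x l ih => simpa using (norm_add_le _ _).trans (add_le_add le_rfl ih)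

lemma sum_le_sum_words {K : Type*} [Finite K] (W : Finset (List K)) {D : ℕ}
    (hW : ∀ v ∈ W, v.length < D) (f : List K → ℝ) (hf : ∀ v, 0 ≤ f v) :
    ∑ v ∈ W, f v ≤ ∑ r ∈ Finset.range D, ∑ v ∈ words K r, f v := by
  classical
  rw [← Finset.sum_biUnion]
  · refine Finset.sum_le_sum_of_subset_of_nonneg (fun v hv => ?_) fun v _ _ => hf v
    simpa using hW v hv
  · intro r _ r' _ hr
    simp only [Function.onFun, Finset.disjoint_left, mem_words]
    intro v h1 h2
    exact hr (h1.symm.trans h2)

namespace Model

variable {J : Type} [DecidableEq J] {A : Type} [CStarAlgebra A] (m : Model (J ⊕ J) A)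

/-- Hidden semicirculars. -/
def h (j : J) : A := m.s (Sum.inl j)
/-- Noise semicirculars. -/
def S (j : J) : A := m.s (Sum.inr j)

variable (Mon : J → List (List J))

/-- The signal: sums of monomials in the hidden variables. -/
def X (j : J) : A := ((Mon j).map (wd m.h)).sum
/-- The noisy signal. -/
def Y (t : ℝ) (j : J) : A := m.X Mon j + (t : ℂ) • m.S j

lemma Y_zero : m.Y Mon 0 = m.X Mon := by funext j; simp [Y]

lemma E_inl_wd (v : List (J ⊕ J)) (a : J) (μ : List J) (x y : A) :
    m.E v (Sum.inl a) x y (wd m.h μ) = ssum μ (fun β c γ => if c = a then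
      m.G v (x * wd m.h β) * m.τ (wd m.h γ * y) else 0) := by
  have := m.E_wd_s v (Sum.inl a) Sum.inl μ x y
  simp only [Sum.inl.injEq] at this
  exact this

lemma E_inr_wd (v : List (J ⊕ J)) (a : J) (μ : List J) (x y : A) :
    m.E v (Sum.inr a) x y (wd m.h μ) = 0 := by
  have := m.E_wd_s v (Sum.inr a) Sum.inl μ x y
  simp only [reduceCtorEq, if_false, ssum_zero] at this
  exact this

lemma E_inl_Y (t : ℝ) (v : List (J ⊕ J)) (a k : J) (x y : A) :
    m.E v (Sum.inl a) x y (m.Y Mon t k) = ((Mon k).map fun μ => ssum μ (fun β c γ =>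
      if c = a then m.G v (x * wd m.h β) * m.τ (wd m.h γ * y) else 0)).sum := by
  simp only [Y, X, S, map_add, map_smul, m.E_s, map_list_sum, List.map_map, Function.comp_def,
    E_inl_wd]
  simp

lemma E_inr_Y (t : ℝ) (v : List (J ⊕ J)) (a k : J) (x y : A) :
    m.E v (Sum.inr a) x y (m.Y Mon t k) = if k = a then t * (m.G v x * m.τ y) else 0 := by
  simp only [Y, X, S, map_add, map_smul, m.E_s, map_list_sum, List.map_map, Function.comp_def,
    E_inr_wd]
  simp

/-- Mixed moments. -/
def F (t : ℝ) (α u : List J) : ℂ := m.τ (wd m.h α * wd (m.Y Mon t) u)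

lemma F_cons (t : ℝ) (a : J) (α u : List J) :
    m.F Mon t (a :: α) u =
      ssum α (fun β c γ => if c = a then m.F Mon 0 β [] * m.F Mon t γ u else 0) +
      ssum u (fun p k q => ((Mon k).map fun μ => ssum μ (fun β c γ =>
        if c = a then m.F Mon t (β ++ α) p * m.F Mon t γ q else 0)).sum) := by
  simp only [F]
  rw [wd_cons, mul_assoc, h, τ_s_mul, m.E_mul, E_inl_wd, E_wd]
  simp only [E_inl_Y, m.G_nil, one_mul, mul_one, wd_nil]
  congr 1
  refine ssum_congr fun p k q _ => ?_
  congr 1
  refine List.map_congr_left fun μ _ => ssum_congr fun β c γ _ => ?_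
  rw [m.τ_comm (_ * _) (wd m.h β), wd_append, mul_assoc]

lemma F_zero_cons (α : List J) (k : J) (v : List J) :
    m.F Mon 0 α (k :: v) = ((Mon k).map fun μ => m.F Mon 0 (α ++ μ) v).sum := by
  simp only [F, Y_zero, wd_cons, wd_append]
  rw [X, ← mul_assoc, ← List.sum_map_mul_left, ← List.sum_map_mul_right, map_list_sum]
  simp [Function.comp_def]

lemma F_nonneg (α v : List J) : 0 ≤ m.F Mon 0 α v := by
  induction v generalizing α with
  | nil => simp only [F, wd_nil, mul_one]; exact m.τ_wd_nonneg Sum.inl α
  | cons k v ih =>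
    rw [F_zero_cons]
    refine List.sum_nonneg ?_
    simp only [List.mem_map]
    rintro _ ⟨μ, _, rfl⟩
    exact ih _

/-- Real version of the noiseless mixed moments. -/
def N (α v : List J) : ℝ := ‖m.F Mon 0 α v‖

lemma N_nonneg (α v : List J) : 0 ≤ m.N Mon α v := norm_nonneg _

lemma ofReal_N (α v : List J) : (m.N Mon α v : ℂ) = m.F Mon 0 α v :=
  Complex.norm_of_nonneg' (m.F_nonneg Mon α v)

lemma N_cons (a : J) (α u : List J) :
    m.N Mon (a :: α) u =
      ssum α (fun β c γ => if c = a then m.N Mon β [] * m.N Mon γ u else 0) +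
      ssum u (fun p k q => ((Mon k).map fun μ => ssum μ (fun β c γ =>
        if c = a then m.N Mon (β ++ α) p * m.N Mon γ q else 0)).sum) := by
  apply Complex.ofReal_injective
  rw [ofReal_N, F_cons]
  change _ = Complex.ofRealHom _
  simp only [map_add, map_ssum, map_list_sum, List.map_map, Function.comp_def, apply_ite,
    map_mul, map_zero, Complex.ofRealHom_eq_coe, ofReal_N]

lemma N_zero_cons (α : List J) (k : J) (v : List J) :
    m.N Mon α (k :: v) = ((Mon k).map fun μ => m.N Mon (α ++ μ) v).sum := by
  apply Complex.ofReal_injective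
  rw [ofReal_N, F_zero_cons]
  change _ = Complex.ofRealHom _
  simp only [map_list_sum, List.map_map, Function.comp_def, Complex.ofRealHom_eq_coe, ofReal_N]

/-- Normalised noise coefficients. -/
def Gn (t : ℝ) (u v : List J) : ℂ :=
  ((t⁻¹ : ℝ) : ℂ) ^ v.length * m.G (v.map Sum.inr) (wd (m.Y Mon t) u)

lemma coprod_Gn {t : ℝ} (ht : t ≠ 0) : Coprod (m.Gn Mon t) := by
  refine coprod_of_snoc fun u v j => ?_
  simp only [Gn, List.map_append, List.map_cons, List.map_nil, m.G_snoc, E_wd, E_inr_Y, mul_ssum,
    one_mul, mul_one, m.G_nil, List.length_append, List.length_singleton, List.length_nil]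
  refine ssum_congr fun p k q _ => ?_
  have : (t : ℂ) ≠ 0 := by exact_mod_cast ht
  split_ifs
  · push_cast; rw [pow_succ]; field_simp
  · simp

variable [Fintype J]

/-- One step of the coefficient recursion. -/
def step (a : J) (α : List J) (c1 c0 : List J → List J →₀ ℂ) : List J →₀ ℂ :=
  ssum α (fun β c γ => if c = a then m.F Mon 0 β [] • c1 γ else 0) +
    ∑ k, ((Mon k).map fun μ => ssum μ (fun β c γ =>
      if c = a then conv k (c0 (β ++ α)) (c0 γ) else 0)).sum

lemma pair_step {Φ : List J → List J → ℂ} (hΦ : Coprod Φ) (a : J) (α : List J)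
    (c1 c0 : List J → List J →₀ ℂ) (u : List J) :
    pair (Φ u) (m.step Mon a α c1 c0) =
      ssum α (fun β c γ => if c = a then m.F Mon 0 β [] * pair (Φ u) (c1 γ) else 0) +
      ssum u (fun p k q => ((Mon k).map fun μ => ssum μ (fun β c γ =>
        if c = a then pair (Φ p) (c0 (β ++ α)) * pair (Φ q) (c0 γ) else 0)).sum) := by
  simp only [step, map_add, map_sum, map_ssum, map_list_sum, List.map_map, Function.comp_def,
    apply_ite (pair (Φ u)), map_zero, map_smul, smul_eq_mul, pair_conv hΦ]
  congr 1
  have h1 : ∀ k : J, ((Mon k).map fun μ => ssum μ (fun β c γ => if c = a then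
        ssum u (fun p k' q => if k' = k then pair (Φ p) (c0 (β ++ α)) * pair (Φ q) (c0 γ) else 0)
        else 0)).sum =
      ssum u (fun p k' q => if k' = k then ((Mon k).map fun μ => ssum μ (fun β c γ =>
        if c = a then pair (Φ p) (c0 (β ++ α)) * pair (Φ q) (c0 γ) else 0)).sum else 0) := by
    intro k
    have h2 : ∀ μ : List J, ssum μ (fun β c γ => if c = a then
        ssum u (fun p k' q => if k' = k then pair (Φ p) (c0 (β ++ α)) * pair (Φ q) (c0 γ) else 0)
        else 0) = ssum u (fun p k' q => ssum μ (fun β c γ => if k' = k then (if c = a then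
          pair (Φ p) (c0 (β ++ α)) * pair (Φ q) (c0 γ) else 0) else 0)) := by
      intro μ
      rw [ssum_comm]
      refine ssum_congr fun β c γ _ => ?_
      by_cases hc : c = a <;> simp [hc]
    simp only [h2]
    rw [← ssum_list_sum]
    refine ssum_congr fun p k' q _ => ?_
    by_cases hk : k' = k <;> simp [hk]
  simp only [h1]
  rw [← ssum_finset_sum]
  refine ssum_congr fun p k q _ => ?_
  simp

lemma exists_coeff {t : ℝ} (ht : t ≠ 0) (D : ℕ) : ∀ α : List J, ∃ c : List J →₀ ℂ,
    (∀ v, ‖c v‖ ≤ m.N Mon α v) ∧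
      ∀ u, u.length < D → m.F Mon t α u = pair (m.Gn Mon t u) c := by
  induction D with
  | zero => exact fun α => ⟨0, fun v => by simpa using m.N_nonneg Mon α v, fun u hu => by omega⟩
  | succ D ihD =>
    choose c0 hc0 hc0' using ihD
    intro α
    induction hn : α.length using Nat.strong_induction_on generalizing α with
    | _ n ih =>
      cases α with
      | nil =>
        refine ⟨Finsupp.single [] 1, fun v => ?_, fun u _ => ?_⟩
        · by_cases hv : v = []
          · subst hv; simp [N, F, m.τ_one]
          · rw [Finsupp.single_eq_of_ne hv, norm_zero]; exact m.N_nonneg Mon _ _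
        · simp [pair_single, F, Gn, m.G_nil]
      | cons a α =>
        have ih' : ∀ γ : List J, ∃ c : List J →₀ ℂ, γ.length < n →
            (∀ v, ‖c v‖ ≤ m.N Mon γ v) ∧
            ∀ u, u.length < D + 1 → m.F Mon t γ u = pair (m.Gn Mon t u) c := by
          intro γ
          by_cases hγ : γ.length < n
          · obtain ⟨c, hc⟩ := ih _ hγ γ rfl
            exact ⟨c, fun _ => hc⟩
          · exact ⟨0, fun h => absurd h hγ⟩
        choose c1 hc1 using ih'
        refine ⟨m.step Mon a α c1 c0, fun v => ?_, fun u hu => ?_⟩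
        · rw [← pair_delta, m.pair_step Mon coprod_delta, N_cons]
          simp only [pair_delta]
          refine (norm_add_le _ _).trans (add_le_add ?_ ?_)
          · refine (norm_ssum_le _ _).trans (ssum_le_ssum fun β c γ hα => ?_)
            split_ifs
            · rw [norm_mul]
              exact mul_le_mul_of_nonneg_left
                ((hc1 γ (by subst hn hα; simp; omega)).1 v) (norm_nonneg _)
            · simp
          · refine (norm_ssum_le _ _).trans (ssum_le_ssum fun p k q _ => ?_)
            refine (norm_list_sum_le _).trans ?_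
            rw [List.map_map]
            refine List.sum_le_sum fun μ _ => ?_
            refine (norm_ssum_le _ _).trans (ssum_le_ssum fun β c γ _ => ?_)
            split_ifs
            · rw [norm_mul]
              exact mul_le_mul (hc0 _ _) (hc0 _ _) (norm_nonneg _) (m.N_nonneg Mon _ _)
            · simp
        · rw [m.pair_step Mon (m.coprod_Gn Mon ht), F_cons]
          congr 1
          · refine ssum_congr fun β c γ hα => ?_
            rw [(hc1 γ (by subst hn hα; simp; omega)).2 u hu]
          · refine ssum_congr fun p k q hu' => ?_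
            have hp : p.length < D := by subst hu'; simp at hu; omega
            have hq : q.length < D := by subst hu'; simp at hu; omega
            simp only [hc0' _ p hp, hc0' _ q hq]

lemma sum_N_sq_le {R R' : ℝ} (hR : ∀ j, ‖m.X Mon j‖ ≤ R) (hR0 : 0 ≤ R)
    (hR' : ‖∑ j, m.X Mon j‖ ≤ R') (r : ℕ) :
    ∑ w ∈ words J r, m.N Mon [] w ^ 2 ≤ (R * R') ^ r := by
  have := m.nontrivial
  have h1 : ∀ w ∈ words J r, m.N Mon [] w ≤ R ^ r := by
    intro w hw
    rw [mem_words] at hw
    simp only [N, F, wd_nil, one_mul, Y_zero]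
    exact (m.τ_norm _).trans (hw ▸ norm_wd_le _ hR w)
  have h2 : ∑ w ∈ words J r, m.N Mon [] w ≤ R' ^ r := by
    have : ((∑ w ∈ words J r, m.N Mon [] w : ℝ) : ℂ) = m.τ ((∑ j, m.X Mon j) ^ r) := by
      rw [← sum_words_wd, map_sum]
      push_cast
      simp only [ofReal_N, F, wd_nil, one_mul, Y_zero]
    calc _ ≤ ‖((∑ w ∈ words J r, m.N Mon [] w : ℝ) : ℂ)‖ := by
          rw [Complex.norm_real]; exact le_abs_self _
      _ ≤ ‖(∑ j, m.X Mon j) ^ r‖ := by rw [this]; exact m.τ_norm _
      _ ≤ R' ^ r := (norm_pow_le _ _).trans (pow_le_pow_left₀ (norm_nonneg _) hR' r)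
  calc _ ≤ ∑ w ∈ words J r, R ^ r * m.N Mon [] w := by
        refine Finset.sum_le_sum fun w hw => ?_
        rw [sq]; exact mul_le_mul_of_nonneg_right (h1 w hw) (m.N_nonneg Mon _ _)
    _ ≤ R ^ r * R' ^ r := by
        rw [← Finset.mul_sum]; exact mul_le_mul_of_nonneg_left h2 (pow_nonneg hR0 r)
    _ = _ := (mul_pow _ _ _).symm

/-- The free Schramm–Wein bound. -/
theorem sw {t R R' : ℝ} (ht : 0 < t) (hR : ∀ j, ‖m.X Mon j‖ ≤ R) (hR0 : 0 ≤ R)
    (hR' : ‖∑ j, m.X Mon j‖ ≤ R') (hs : 2 * (R * R') ≤ t ^ 2) (D : ℕ) :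
    ∃ κ : J → ℝ, (∀ j, 0 ≤ κ j) ∧ ∑ j, κ j ≤ 2 * (R * R') ∧ ∀ j,
      ∀ q ∈ Submodule.span ℂ {x | ∃ u : List J, u.length < D ∧ x = wd (m.Y Mon t) u},
        ‖m.τ (m.X Mon j * q)‖ ^ 2 ≤ κ j * (m.τ (star q * q)).re := by
  choose c hc hc' using m.exists_coeff Mon ht.ne' D
  set C : J → List J →₀ ℂ := fun j => ((Mon j).map c).sum with hC
  have hCb : ∀ j v, ‖C j v‖ ≤ m.N Mon [] (j :: v) := by
    intro j v
    rw [N_zero_cons, hC]
    change ‖Finsupp.applyAddHom v _‖ ≤ _
    rw [map_list_sum]
    refine (norm_list_sum_le _).trans ?_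
    rw [List.map_map, List.map_map]
    exact List.sum_le_sum fun μ _ => by simpa using hc μ v
  have hR0' : 0 ≤ R' := (norm_nonneg _).trans hR'
  refine ⟨fun j => ∑ v ∈ (C j).support, (m.N Mon [] (j :: v) * t⁻¹ ^ v.length) ^ 2,
    fun j => by positivity, ?_, fun j q hq => ?_⟩
  · obtain ⟨D', hD'⟩ : ∃ D', ∀ j, ∀ v ∈ (C j).support, v.length < D' := by
      refine ⟨(Finset.univ.biUnion fun j => (C j).support).sup List.length + 1, fun j v hv => ?_⟩
      exact Nat.lt_succ_of_le (Finset.le_sup (f := List.length)
        (Finset.mem_biUnion.2 ⟨j, Finset.mem_univ _, hv⟩))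
    calc _ ≤ ∑ j, ∑ r ∈ Finset.range D', ∑ v ∈ words J r,
          (m.N Mon [] (j :: v) * t⁻¹ ^ v.length) ^ 2 :=
          Finset.sum_le_sum fun j _ => sum_le_sum_words _ (hD' j) _ fun v => by positivity
      _ = ∑ r ∈ Finset.range D', (t⁻¹ ^ 2) ^ r * ∑ w ∈ words J (r + 1), m.N Mon [] w ^ 2 := by
          rw [Finset.sum_comm]
          refine Finset.sum_congr rfl fun r _ => ?_
          rw [sum_words_succ, Finset.mul_sum]
          refine Finset.sum_congr rfl fun j _ => ?_
          rw [Finset.mul_sum]
          refine Finset.sum_congr rfl fun v hv => ?_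
          rw [mem_words.1 hv]; ring
      _ ≤ ∑ r ∈ Finset.range D', R * R' * (1 / 2) ^ r := by
          refine Finset.sum_le_sum fun r _ => ?_
          have h1 : t⁻¹ ^ 2 * (R * R') ≤ 1 / 2 := by
            rw [inv_pow, inv_mul_le_iff₀ (by positivity)]; linarith
          calc _ ≤ (t⁻¹ ^ 2) ^ r * (R * R') ^ (r + 1) :=
                mul_le_mul_of_nonneg_left (m.sum_N_sq_le Mon hR hR0 hR' _) (by positivity)
            _ = R * R' * (t⁻¹ ^ 2 * (R * R')) ^ r := by ring
            _ ≤ _ := mul_le_mul_of_nonneg_left (pow_le_pow_left₀ (by positivity) h1 r)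
                (by positivity)
      _ ≤ _ := by
          rw [← Finset.mul_sum, mul_comm]
          exact mul_le_mul_of_nonneg_right (sum_geometric_two_le _) (by positivity)
  · have key : m.τ (m.X Mon j * q) =
        pair (fun v => ((t⁻¹ : ℝ) : ℂ) ^ v.length * m.G (v.map Sum.inr) q) (C j) := by
      induction hq using Submodule.span_induction with
      | mem x hx =>
        obtain ⟨u, hu, rfl⟩ := hx
        rw [hC, X, ← List.sum_map_mul_right, map_list_sum, map_list_sum, List.map_map,
          List.map_map]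
        congr 1
        exact List.map_congr_left fun μ _ => hc' μ u hu
      | zero => simp [pair_apply]
      | add x y _ _ hx hy =>
        simp only [mul_add, map_add, hx, hy, pair_apply, Finset.sum_add_distrib]
      | smul a x _ hx =>
        simp only [mul_smul_comm, map_smul, hx, pair_apply, smul_eq_mul, Finset.mul_sum]
        exact Finset.sum_congr rfl fun _ _ => by ring
    have hb : ∑ v ∈ (C j).support, ‖m.G (v.map Sum.inr) q‖ ^ 2 ≤ (m.τ (star q * q)).re := by
      have := m.bessel ((C j).support.map ⟨List.map Sum.inr,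
        List.map_injective_iff.2 Sum.inr_injective⟩) q
      rwa [Finset.sum_map] at this
    calc _ ≤ (∑ v ∈ (C j).support, (m.N Mon [] (j :: v) * t⁻¹ ^ v.length) *
          ‖m.G (v.map Sum.inr) q‖) ^ 2 := by
          rw [key, pair_apply]
          refine pow_le_pow_left₀ (norm_nonneg _) ((norm_sum_le _ _).trans
            (Finset.sum_le_sum fun v _ => ?_)) 2
          rw [norm_mul, norm_mul, norm_pow, Complex.norm_real, Real.norm_of_nonneg (by positivity),
            mul_assoc]
          exact mul_le_mul_of_nonneg_right (hCb j v) (by positivity)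
      _ ≤ _ := (Finset.sum_mul_sq_le_sq_mul_sq _ _ _).trans
          (mul_le_mul_of_nonneg_left hb (by positivity))

end Model

end Crest.Agent.R89
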