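import Mathlib
import Crest.Prelude.Def_FreeEntropy
import Crest.Agent.R89.SW

/-! Bounds for the free Fisher information along the free heat flow. -/

set_option autoImplicit false
set_option linter.unusedSectionVars false

open scoped ComplexConjugate ComplexOrder ENNReal
open Crest.OpAlg

noncomputable section

namespace Crest.Agent.R89

section poly
variable {A : Type*} [Ring A] [Algebra ℂ A] {n : ℕ}

lemma wordEval_eq (Y : Fin n → A) (w : FreeMonoid (Fin n)) :
    wordEval Y w = wd Y (FreeMonoid.toList w) := FreeMonoid.lift_apply Y w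

lemma polyEval_eq (Y : Fin n → A) (P : NCPoly n) :
    polyEval Y P = ∑ w ∈ P.coeff.support, P.coeff w • wd Y (FreeMonoid.toList w) := by
  rw [polyEval, MonoidAlgebra.lift_apply]
  simp only [Finsupp.sum, FreeMonoid.lift_apply, wd]

lemma polyEval_single (Y : Fin n → A) (w : FreeMonoid (Fin n)) (c : ℂ) :
    polyEval Y (MonoidAlgebra.single w c) = c • wd Y (FreeMonoid.toList w) := by
  rw [polyEval, MonoidAlgebra.lift_single, FreeMonoid.lift_apply, wd]

lemma polyEval_mem (Y : Fin n → A) (P : NCPoly n) (B : Subalgebra ℂ A) (h : ∀ i, Y i ∈ B) :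
    polyEval Y P ∈ B := by
  rw [polyEval_eq]
  refine sum_mem fun w _ => B.smul_mem (list_prod_mem ?_) _
  simp only [List.mem_map]
  rintro _ ⟨i, _, rfl⟩
  exact h i

lemma star_polyEval [StarRing A] [StarModule ℂ A] (Y : Fin n → A) (hY : ∀ i, star (Y i) = Y i)
    (P : NCPoly n) : star (polyEval Y P) = polyEval Y (polyStar P) := by
  rw [polyEval_eq, polyStar, Finsupp.sum, star_sum]
  change _ = MonoidAlgebra.lift ℂ A (FreeMonoid (Fin n)) (FreeMonoid.lift Y) _
  rw [map_sum]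
  refine Finset.sum_congr rfl fun w _ => ?_
  change _ = polyEval Y _
  rw [polyEval_single, star_smul, star_wd Y hY]
  rfl

/-- `η` is a conjugate variable of `Y i`. -/
def IsConj (τ : A →ₗ[ℂ] ℂ) (Y : Fin n → A) (i : Fin n) (η : A) : Prop :=
  ∀ u, τ (η * wd Y u) = ssum u (fun p k q => if k = i then τ (wd Y p) * τ (wd Y q) else 0)

lemma splitPairing_eq' (τ : A →ₗ[ℂ] ℂ) (Y : Fin n → A) (i : Fin n) (P : NCPoly n) :
    splitPairing τ Y i P = ∑ w ∈ P.coeff.support, P.coeff w *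
      ssum (FreeMonoid.toList w) (fun p k q => if k = i then τ (wd Y p) * τ (wd Y q) else 0) := by
  rw [splitPairing, Finsupp.sum]
  refine Finset.sum_congr rfl fun w _ => ?_
  rw [← ssum_eq_range]
  simp only [wordEval_eq]
  rfl

lemma IsConj.splitPairing_eq {τ : A →ₗ[ℂ] ℂ} {Y : Fin n → A} {i : Fin n} {η : A}
    (h : IsConj τ Y i η) (P : NCPoly n) : splitPairing τ Y i P = τ (η * polyEval Y P) := by
  rw [splitPairing_eq', polyEval_eq, Finset.mul_sum, map_sum]
  refine Finset.sum_congr rfl fun w _ => ?_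
  rw [mul_smul_comm, map_smul, h, smul_eq_mul]

lemma fisher_le {τ : A →ₗ[ℂ] ℂ} {Y : Fin n → A} {c : ℝ}
    (h : ∀ P : Fin n → NCPoly n, (∀ i, polyStar (P i) = P i) →
      ∑ i, (2 * splitPairing τ Y i (P i) - τ (polyEval Y (P i) * polyEval Y (P i))).re ≤ c) :
    freeFisher τ Y ≤ ENNReal.ofReal c := by
  refine iSup₂_le fun P hP => ENNReal.ofReal_le_ofReal ?_
  rw [Complex.re_sum]
  exact h P hP

lemma le_fisher (τ : A →ₗ[ℂ] ℂ) (h1 : τ 1 = 1) (Y : Fin n → A) (c : ℝ) :
    ENNReal.ofReal (∑ i, (2 * c - c ^ 2 * (τ (Y i * Y i)).re)) ≤ freeFisher τ Y := by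
  refine le_iSup₂_of_le (fun i => MonoidAlgebra.single (FreeMonoid.of i) (c : ℂ)) (fun i => ?_)
    (le_of_eq ?_)
  · rw [polyStar, MonoidAlgebra.coeff_single, Finsupp.sum_single_index (by simp)]
    simp
  · rw [Complex.re_sum]
    congr 1
    refine Finset.sum_congr rfl fun i _ => ?_
    rw [splitPairing, MonoidAlgebra.coeff_single, Finsupp.sum_single_index (by simp),
      polyEval_single]
    simp [wordEval_eq, h1, sq]
    ring

lemma exists_deg (P : Fin n → NCPoly n) : ∃ D, 1 < D ∧ ∀ (Y : Fin n → A) (i : Fin n),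
    polyEval Y (P i) ∈ Submodule.span ℂ {x | ∃ u : List (Fin n), u.length < D ∧ x = wd Y u} := by
  classical
  refine ⟨(Finset.univ.biUnion fun j => (P j).coeff.support).sup
    (fun w => (FreeMonoid.toList w).length) + 2, by omega, fun Y i => ?_⟩
  rw [polyEval_eq]
  refine sum_mem fun w hw => Submodule.smul_mem _ _ (Submodule.subset_span ⟨_, ?_, rfl⟩)
  have := Finset.le_sup (f := fun w => (FreeMonoid.toList w).length)
    (Finset.mem_biUnion.2 ⟨i, Finset.mem_univ _, hw⟩ :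
      w ∈ Finset.univ.biUnion fun j => (P j).coeff.support)
  omega

end poly

lemma continuous_wd {A α K : Type*} [Monoid A] [TopologicalSpace A] [ContinuousMul A]
    [TopologicalSpace α] {Y : α → K → A} (hY : ∀ i, Continuous fun a => Y a i) (u : List K) :
    Continuous fun a => wd (Y a) u := by
  induction u with
  | nil => simpa using continuous_const
  | cons x u ih => simp only [wd_cons]; exact (hY x).mul ih

lemma continuous_ssum {M α K : Type*} [AddCommMonoid M] [TopologicalSpace M] [ContinuousAdd M]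
    [TopologicalSpace α] (u : List K) {f : α → List K → K → List K → M}
    (h : ∀ p y q, Continuous fun a => f a p y q) : Continuous fun a => ssum u (f a) :=
  continuous_iff_continuousAt.2 fun _ => tendsto_ssum fun p y q _ => (h p y q).continuousAt

lemma measurable_fisher {A : Type*} [NormedRing A] [NormedAlgebra ℂ A] {n : ℕ}
    {τ : A →ₗ[ℂ] ℂ} (hτ : Continuous τ) {Y : ℝ → Fin n → A} (hY : ∀ i, Continuous fun a => Y a i) :
    Measurable fun s => freeFisher τ (Y s) := by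
  refine LowerSemicontinuous.measurable ?_
  refine lowerSemicontinuous_iSup fun P => lowerSemicontinuous_iSup fun _ =>
    Continuous.lowerSemicontinuous ?_
  refine ENNReal.continuous_ofReal.comp (Complex.continuous_re.comp ?_)
  have hp : ∀ Q : NCPoly n, Continuous fun s => polyEval (Y s) Q := fun Q => by
    simp only [polyEval_eq]
    exact continuous_finsetSum _ fun w _ => (continuous_wd hY _).const_smul _
  refine continuous_finsetSum _ fun i _ => Continuous.sub (continuous_const.mul ?_)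
    (hτ.comp ((hp _).mul (hp _)))
  simp only [splitPairing_eq']
  refine continuous_finsetSum _ fun w _ => continuous_const.mul (continuous_ssum _ fun p y q => ?_)
  split_ifs
  · exact (hτ.comp (continuous_wd hY _)).mul (hτ.comp (continuous_wd hY _))
  · exact continuous_const

namespace Model

section basic
variable {I : Type} [DecidableEq I] {A : Type} [CStarAlgebra A] (m : Model I A)

lemma continuous_τ : Continuous m.τ :=
  (m.τ.mkContinuous 1 fun a => by simpa using m.τ_norm a).continuous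

/-- Squared 2-norm. -/
def n2 (a : A) : ℝ := (m.τ (star a * a)).re

lemma n2_nonneg (a : A) : 0 ≤ m.n2 a := m.τ_pos a

lemma n2_le (a : A) : m.n2 a ≤ ‖a‖ ^ 2 := by
  refine (Complex.re_le_norm _).trans ((m.τ_norm _).trans ?_)
  rw [CStarRing.norm_star_mul_self, sq]

lemma n2_smul (c : ℝ) (a : A) : m.n2 ((c : ℂ) • a) = c ^ 2 * m.n2 a := by
  simp only [n2, star_smul, smul_mul_smul_comm, map_smul, smul_eq_mul, Complex.star_def,
    Complex.conj_ofReal, ← Complex.ofReal_mul, Complex.re_ofReal_mul, sq]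

lemma n2_add (a b : A) : m.n2 (a + b) = m.n2 a + 2 * (m.τ (star a * b)).re + m.n2 b := by
  have : (m.τ (star b * a)).re = (m.τ (star a * b)).re := by
    rw [← Complex.conj_re, ← m.τ_star, star_mul, star_star]
  simp only [n2, star_add, add_mul, mul_add, map_add, Complex.add_re, this]
  ring

lemma n2_neg (a : A) : m.n2 (-a) = m.n2 a := by simp [n2]

lemma n2_sub (a b : A) : m.n2 (a - b) = m.n2 a - 2 * (m.τ (star a * b)).re + m.n2 b := by
  rw [sub_eq_add_neg, n2_add, n2_neg]; simp; ring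

lemma τ_s_s (i j : I) : m.τ (m.s i * m.s j) = if j = i then 1 else 0 := by
  rw [τ_s_mul, m.E_s, m.G_nil, m.τ_one, one_mul]

lemma n2_s (i : I) : m.n2 (m.s i) = 1 := by simp [n2, m.s_sa, τ_s_s]

lemma term_eq (η p : A) (hp : star p = p) :
    (2 * m.τ (η * p) - m.τ (p * p)).re = m.n2 (star η) - m.n2 (star η - p) := by
  rw [n2_sub, star_star]
  simp only [n2, hp, Complex.sub_re, Complex.mul_re, Complex.re_ofNat, Complex.im_ofNat]
  ring

lemma term_le (η p : A) (hp : star p = p) :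
    (2 * m.τ (η * p) - m.τ (p * p)).re ≤ m.n2 (star η) := by
  rw [m.term_eq η p hp]; linarith [m.n2_nonneg (star η - p)]

lemma fisher_le_of_conj {n : ℕ} {Y : Fin n → A} (hY : ∀ i, star (Y i) = Y i) {η : Fin n → A}
    (hη : ∀ i, IsConj m.τ Y i (η i)) :
    freeFisher m.τ Y ≤ ENNReal.ofReal (∑ i, m.n2 (star (η i))) := by
  refine fisher_le fun P hP => Finset.sum_le_sum fun i _ => ?_
  rw [(hη i).splitPairing_eq]
  exact m.term_le _ _ (by rw [star_polyEval Y hY, hP])

end basic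

variable {n : ℕ} {A : Type} [CStarAlgebra A] (m : Model (Fin n ⊕ Fin n) A)
  (Mon : Fin n → List (List (Fin n)))

lemma star_h (j : Fin n) : star (m.h j) = m.h j := m.s_sa _
lemma star_S (j : Fin n) : star (m.S j) = m.S j := m.s_sa _

lemma star_Y (hX : ∀ j, star (m.X Mon j) = m.X Mon j) (t : ℝ) (j : Fin n) :
    star (m.Y Mon t j) = m.Y Mon t j := by
  simp [Y, hX, star_S]

lemma τ_S_wd (t : ℝ) (j : Fin n) (u : List (Fin n)) :
    m.τ (m.S j * wd (m.Y Mon t) u) = t * ssum u (fun p k q =>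
      if k = j then m.τ (wd (m.Y Mon t) p) * m.τ (wd (m.Y Mon t) q) else 0) := by
  rw [S, τ_s_mul, E_wd, mul_ssum]
  simp [E_inr_Y, m.G_nil]

lemma conj_S {t : ℝ} (ht : t ≠ 0) (j : Fin n) :
    IsConj m.τ (m.Y Mon t) j (((t⁻¹ : ℝ) : ℂ) • m.S j) := by
  intro u
  have : (t : ℂ) ≠ 0 := by exact_mod_cast ht
  rw [smul_mul_assoc, map_smul, τ_S_wd, smul_eq_mul, ← mul_assoc]
  simp [this]

lemma τ_X_S (j : Fin n) : m.τ (m.X Mon j * m.S j) = 0 := by
  have := m.τ_S_wd Mon 0 j [j]
  simp only [Y_zero, wd_cons, wd_nil, mul_one, Complex.ofReal_zero, zero_mul] at this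
  rw [m.τ_comm, this]

lemma n2_Y (hX : ∀ j, star (m.X Mon j) = m.X Mon j) (t : ℝ) (j : Fin n) :
    m.n2 (m.Y Mon t j) = m.n2 (m.X Mon j) + t ^ 2 := by
  rw [Y, n2_add, n2_smul, hX, mul_smul_comm, map_smul, τ_X_S, S, n2_s]
  simp

/-- Cramér–Rao lower bound. -/
lemma le_fisher_Y (hX : ∀ j, star (m.X Mon j) = m.X Mon j) {R : ℝ} (hR : ∀ j, ‖m.X Mon j‖ ≤ R)
    {t : ℝ} (ht : 0 < t) :
    ENNReal.ofReal (n / (R ^ 2 + t ^ 2)) ≤ freeFisher m.τ (m.Y Mon t) := by
  refine le_trans (ENNReal.ofReal_le_ofReal ?_) (le_fisher m.τ m.τ_one _ (R ^ 2 + t ^ 2)⁻¹)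
  have hpos : 0 < R ^ 2 + t ^ 2 := by positivity
  calc (n : ℝ) / (R ^ 2 + t ^ 2) = ∑ _i : Fin n, (R ^ 2 + t ^ 2)⁻¹ := by simp [div_eq_mul_inv]
    _ ≤ _ := Finset.sum_le_sum fun i _ => ?_
  have h1 : (m.τ (m.Y Mon t i * m.Y Mon t i)).re ≤ R ^ 2 + t ^ 2 := by
    have := m.n2_Y Mon hX t i
    rw [n2, m.star_Y Mon hX] at this
    rw [this]
    have h2 := (m.n2_le (m.X Mon i)).trans (pow_le_pow_left₀ (norm_nonneg _) (hR i) 2)
    linarith
  have h2 : (R ^ 2 + t ^ 2)⁻¹ ^ 2 * (m.τ (m.Y Mon t i * m.Y Mon t i)).re ≤ (R ^ 2 + t ^ 2)⁻¹ := by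
    calc _ ≤ (R ^ 2 + t ^ 2)⁻¹ ^ 2 * (R ^ 2 + t ^ 2) := by gcongr
      _ = _ := by field_simp
  linarith

/-- The bound in the hard regime. -/
lemma fisher_le_hard (hX : ∀ j, star (m.X Mon j) = m.X Mon j) {t R R' : ℝ} (ht : 0 < t)
    (hR : ∀ j, ‖m.X Mon j‖ ≤ R) (hR0 : 0 ≤ R)
    (hR' : ‖∑ j, m.X Mon j‖ ≤ R') (hs : 2 * (R * R') ≤ t ^ 2) :
    freeFisher m.τ (m.Y Mon t) ≤ ENNReal.ofReal
      (n / t ^ 2 - (∑ j, m.n2 (m.X Mon j) - 2 * (R * R')) / (t ^ 2) ^ 2) := by
  refine fisher_le fun P hP => ?_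
  obtain ⟨D, hD1, hD⟩ := exists_deg (A := A) P
  obtain ⟨κ, hκ0, hκ, hq⟩ := m.sw Mon ht hR hR0 hR' hs D
  have key : ∀ i, (2 * splitPairing m.τ (m.Y Mon t) i (P i) -
      m.τ (polyEval (m.Y Mon t) (P i) * polyEval (m.Y Mon t) (P i))).re ≤
      1 / t ^ 2 - (m.n2 (m.X Mon i) - κ i) / (t ^ 2) ^ 2 := by
    intro i
    have hp : star (polyEval (m.Y Mon t) (P i)) = polyEval (m.Y Mon t) (P i) := by
      rw [star_polyEval _ (m.star_Y Mon hX t), hP]
    rw [(m.conj_S Mon ht.ne' i).splitPairing_eq, m.term_eq _ _ hp]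
    set p := polyEval (m.Y Mon t) (P i) with hpdef
    set q := m.Y Mon t i - ((t ^ 2 : ℝ) : ℂ) • p with hqdef
    have hqm : q ∈ Submodule.span ℂ
        {x | ∃ u : List (Fin n), u.length < D ∧ x = wd (m.Y Mon t) u} :=
      sub_mem (Submodule.subset_span ⟨[i], by simpa using hD1, by simp⟩)
        (Submodule.smul_mem _ _ (hD _ i))
    have hη : star (((t⁻¹ : ℝ) : ℂ) • m.S i) = ((t⁻¹ : ℝ) : ℂ) • m.S i := by simp [star_S]
    have ht' : (t : ℂ) ≠ 0 := by exact_mod_cast ht.ne'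
    have h1 : q - m.X Mon i = ((t ^ 2 : ℝ) : ℂ) • (((t⁻¹ : ℝ) : ℂ) • m.S i - p) := by
      rw [hqdef, Y, smul_sub, smul_smul]
      have : ((t ^ 2 : ℝ) : ℂ) * ((t⁻¹ : ℝ) : ℂ) = t := by push_cast; field_simp
      rw [this]; abel
    have h2 : m.n2 (m.X Mon i) - κ i ≤ (t ^ 2) ^ 2 * m.n2 (((t⁻¹ : ℝ) : ℂ) • m.S i - p) := by
      rw [← n2_smul, ← h1, ← m.n2_neg (q - _), neg_sub, n2_sub, hX]
      have h3 := hq i q hqm
      change _ ≤ κ i * m.n2 q at h3
      have h4 := Complex.re_le_norm (m.τ (m.X Mon i * q))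
      have h5 := m.n2_nonneg q
      have h6 := hκ0 i
      have h7 : 2 * ‖m.τ (m.X Mon i * q)‖ ≤ κ i + m.n2 q := by
        refine (pow_le_pow_iff_left₀ (by positivity) (by positivity) two_ne_zero).1 ?_
        nlinarith [sq_nonneg (κ i - m.n2 q)]
      linarith
    rw [hη, n2_smul, S, n2_s, ← S, inv_pow, mul_one, one_div]
    have : (m.n2 (m.X Mon i) - κ i) / (t ^ 2) ^ 2 ≤ m.n2 (((t⁻¹ : ℝ) : ℂ) • m.S i - p) := by
      rw [div_le_iff₀ (by positivity)]; linarith
    linarith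
  refine (Finset.sum_le_sum fun i _ => key i).trans ?_
  rw [Finset.sum_sub_distrib, ← Finset.sum_div, ← Finset.sum_div, Finset.sum_sub_distrib]
  simp only [Finset.sum_const, Finset.card_univ, Fintype.card_fin, nsmul_eq_mul, mul_one]
  gcongr

section triangular
variable (base : Fin n → Prop) [DecidablePred base] (T : Fin n → List (List (Fin n)))
  (hT : ∀ k, ∀ μ ∈ T k, ∀ c ∈ μ, base c) (hb : ∀ k, base k → T k = [])

include hT in
lemma E_inl_Y_not (t : ℝ) {j : Fin n} (hj : ¬ base j) (k : Fin n) (x y : A) :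
    m.E [] (Sum.inl j) x y (m.Y (fun j => [j] :: T j) t k) =
      if k = j then m.τ x * m.τ y else 0 := by
  rw [E_inl_Y, List.map_cons, List.sum_cons, List.sum_eq_zero]
  · simp [ssum_cons, m.G_nil]
  · simp only [List.mem_map]
    rintro _ ⟨μ, hμ, rfl⟩
    refine ssum_eq_zero fun β c γ h => if_neg ?_
    rintro rfl
    exact hj (hT k μ hμ c (by simp [h]))

lemma E_inl_wd_not {j : Fin n} (hj : ¬ base j) {μ : List (Fin n)} (hμ : ∀ c ∈ μ, base c)
    (x y : A) : m.E [] (Sum.inl j) x y (wd m.h μ) = 0 := by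
  rw [E_inl_wd]
  refine ssum_eq_zero fun β c γ h => if_neg ?_
  rintro rfl
  exact hj (hμ c (by simp [h]))

include hT in
lemma τ_sandwich (t : ℝ) {k : Fin n} (hk : ¬ base k) {β γ : List (Fin n)} (hβ : ∀ c ∈ β, base c)
    (hγ : ∀ c ∈ γ, base c) (u : List (Fin n)) :
    m.τ (wd m.h γ * m.h k * wd m.h β * wd (m.Y (fun j => [j] :: T j) t) u) =
      ssum u (fun p y q => if y = k then
        m.τ (wd (m.Y (fun j => [j] :: T j) t) p * wd m.h β) *
        m.τ (wd m.h γ * wd (m.Y (fun j => [j] :: T j) t) q) else 0) := by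
  rw [mul_assoc, mul_assoc, m.τ_comm, mul_assoc, h, τ_s_mul, m.E_mul, m.E_mul,
    m.E_inl_wd_not base hk hβ, m.E_inl_wd_not base hk hγ, E_wd]
  simp only [m.E_inl_Y_not base T hT t hk, zero_add, add_zero, one_mul, mul_one]
  refine ssum_congr fun p y q _ => ?_
  rw [m.τ_comm (wd m.h β), m.τ_comm (wd m.h γ)]

include hT in
lemma conj_not_base (t : ℝ) {j : Fin n} (hj : ¬ base j) :
    IsConj m.τ (m.Y (fun j => [j] :: T j) t) j
      ((((1 + t ^ 2)⁻¹ : ℝ) : ℂ) • (m.h j + (t : ℂ) • m.S j)) := by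
  intro u
  have h1 := m.τ_sandwich base T hT t hj (β := []) (γ := []) (by simp) (by simp) u
  simp only [wd_nil, one_mul, mul_one] at h1
  rw [smul_mul_assoc, add_mul, smul_mul_assoc, map_smul, map_add, map_smul, h1, τ_S_wd]
  have : (1 + (t : ℂ) ^ 2) ≠ 0 := by
    have : (1 + t ^ 2 : ℝ) ≠ 0 := by positivity
    exact_mod_cast this
  simp only [smul_eq_mul]
  push_cast
  field_simp

/-- The conjugate variable of a base coordinate. -/
def eta (j : Fin n) : A := m.h j - ∑ k, ((T k).map fun μ => ssum μ (fun β c γ =>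
  if c = j then wd m.h γ * m.h k * wd m.h β else 0)).sum

include hT hb in
lemma conj_base (t : ℝ) (j : Fin n) :
    IsConj m.τ (m.Y (fun j => [j] :: T j) t) j (m.eta T j) := by
  intro u
  set Y := m.Y (fun j => [j] :: T j) t with hY
  have h1 : m.τ (m.h j * wd Y u) =
      ssum u (fun p k q => if k = j then m.τ (wd Y p) * m.τ (wd Y q) else 0) +
      ssum u (fun p k q => ((T k).map fun μ => ssum μ (fun β c γ =>
        if c = j then m.τ (wd Y p * wd m.h β) * m.τ (wd m.h γ * wd Y q) else 0)).sum) := by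
    rw [h, τ_s_mul, E_wd, ← ssum_add]
    simp [hY, E_inl_Y, ssum_cons, m.G_nil]
  have h2 : ∀ k, m.τ (((T k).map fun μ => ssum μ (fun β c γ =>
      if c = j then wd m.h γ * m.h k * wd m.h β else 0)).sum * wd Y u) =
      ssum u (fun p y q => if y = k then ((T k).map fun μ => ssum μ (fun β c γ =>
        if c = j then m.τ (wd Y p * wd m.h β) * m.τ (wd m.h γ * wd Y q) else 0)).sum else 0) := by
    intro k
    by_cases hk : base k
    · simp [hb k hk]
    rw [← List.sum_map_mul_right, map_list_sum, List.map_map]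
    have h3 : ∀ μ ∈ T k, (m.τ ∘ fun μ => ssum μ (fun β c γ =>
        if c = j then wd m.h γ * m.h k * wd m.h β else 0) * wd Y u) μ =
        ssum u (fun p y q => if y = k then ssum μ (fun β c γ =>
          if c = j then m.τ (wd Y p * wd m.h β) * m.τ (wd m.h γ * wd Y q) else 0) else 0) := by
      intro μ hμ
      have h4 : ssum u (fun p y q => if y = k then ssum μ (fun β c γ =>
          if c = j then m.τ (wd Y p * wd m.h β) * m.τ (wd m.h γ * wd Y q) else 0) else 0) =
          ssum u (fun p y q => ssum μ (fun β c γ => if c = j then (if y = k then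
            m.τ (wd Y p * wd m.h β) * m.τ (wd m.h γ * wd Y q) else 0) else 0)) := by
        refine ssum_congr fun p y q _ => ?_
        by_cases hy : y = k <;> simp [hy]
      rw [h4, ssum_comm, Function.comp_apply, ssum_mul, map_ssum]
      refine ssum_congr fun β c γ hμ' => ?_
      by_cases hc : c = j
      · simp only [hc, if_true]
        exact m.τ_sandwich base T hT t hk (fun c hc => hT k μ hμ c (by simp [hμ', hc]))
          (fun c hc => hT k μ hμ c (by simp [hμ', hc])) u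
      · simp [hc]
    rw [List.map_congr_left h3, ← ssum_list_sum]
    refine ssum_congr fun p y q _ => ?_
    by_cases hy : y = k <;> simp [hy]
  rw [eta, sub_mul, map_sub, h1, Finset.sum_mul, map_sum]
  simp only [h2]
  rw [← ssum_finset_sum]
  simp

lemma norm_eta (hl : ∀ k, (T k).length ≤ 2) (hl' : ∀ k, ∀ μ ∈ T k, μ.length ≤ 3) (j : Fin n) :
    ‖m.eta T j‖ ≤ 2 + 48 * n := by
  have := m.nontrivial
  have hh : ∀ k, ‖m.h k‖ ≤ 2 := fun k => m.norm_s _
  refine (norm_sub_le _ _).trans (add_le_add (hh j) ((norm_sum_le _ _).trans ?_))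
  calc _ ≤ ∑ _k : Fin n, (48 : ℝ) := Finset.sum_le_sum fun k _ => ?_
    _ = _ := by simp [mul_comm]
  refine (norm_list_sum_le _).trans ?_
  rw [List.map_map]
  calc _ ≤ ((T k).map fun _ => (24 : ℝ)).sum := List.sum_le_sum fun μ hμ => ?_
    _ ≤ 48 := by
      have : ((T k).length : ℝ) ≤ 2 := by exact_mod_cast hl k
      simp; linarith
  refine (norm_ssum_le _ _).trans ?_
  calc _ ≤ ssum μ (fun _ _ _ => (8 : ℝ)) := ssum_le_ssum fun β c γ h => ?_
    _ ≤ 24 := by
      have : (μ.length : ℝ) ≤ 3 := by exact_mod_cast hl' k μ hμ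
      rw [ssum_const]; linarith
  split_ifs
  · have h1 : wd m.h γ * m.h k * wd m.h β = wd m.h (γ ++ k :: β) := by
      simp [wd_append, mul_assoc]
    rw [h1]
    refine (norm_wd_le _ hh _).trans ?_
    have h2 : (γ ++ k :: β).length ≤ 3 := by
      have := hl' k μ hμ
      subst h; simp at this ⊢; omega
    calc (2 : ℝ) ^ (γ ++ k :: β).length ≤ 2 ^ 3 := pow_le_pow_right₀ (by norm_num) h2
      _ = 8 := by norm_num
  · simp

lemma n2_not_base (t : ℝ) (j : Fin n) :
    m.n2 (star ((((1 + t ^ 2)⁻¹ : ℝ) : ℂ) • (m.h j + (t : ℂ) • m.S j))) = (1 + t ^ 2)⁻¹ := by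
  have : star ((((1 + t ^ 2)⁻¹ : ℝ) : ℂ) • (m.h j + (t : ℂ) • m.S j)) =
      (((1 + t ^ 2)⁻¹ : ℝ) : ℂ) • (m.h j + (t : ℂ) • m.S j) := by
    rw [star_smul, star_add, star_smul, star_h, star_S]
    simp only [Complex.star_def, Complex.conj_ofReal]
  rw [this, n2_smul, n2_add, n2_smul, star_h, h, S, n2_s, n2_s, mul_smul_comm, map_smul, τ_s_s]
  simp
  field_simp

include hT hb in
lemma fisher_le_easy (hX : ∀ j, star (m.X (fun j => [j] :: T j) j) = m.X (fun j => [j] :: T j) j)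
    (hl : ∀ k, (T k).length ≤ 2) (hl' : ∀ k, ∀ μ ∈ T k, μ.length ≤ 3) {t : ℝ} (ht : 0 < t) :
    freeFisher m.τ (m.Y (fun j => [j] :: T j) t) ≤ ENNReal.ofReal
      ((Finset.univ.filter base).card * min ((2 + 48 * n : ℝ) ^ 2) (t ^ 2)⁻¹ +
        (Finset.univ.filter fun j => ¬ base j).card * (1 + t ^ 2)⁻¹) := by
  have key : ∀ (η : Fin n → A) (c : ℝ), (∀ j, IsConj m.τ (m.Y (fun j => [j] :: T j) t) j (η j)) →
      (∀ j, m.n2 (star (η j)) ≤ c) → freeFisher m.τ (m.Y (fun j => [j] :: T j) t) ≤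
      ENNReal.ofReal ((Finset.univ.filter base).card * c +
        (Finset.univ.filter fun j => ¬ base j).card * (1 + t ^ 2)⁻¹) := by
    intro η c hη hc
    refine (m.fisher_le_of_conj (m.star_Y _ hX t) (η := fun j => if base j then η j else
      (((1 + t ^ 2)⁻¹ : ℝ) : ℂ) • (m.h j + (t : ℂ) • m.S j)) fun j => ?_).trans
      (ENNReal.ofReal_le_ofReal ?_)
    · split_ifs with hj
      · exact hη j
      · exact m.conj_not_base base T hT t hj
    · simp only [apply_ite star, apply_ite m.n2, n2_not_base, Finset.sum_ite, Finset.sum_const,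
        nsmul_eq_mul]
      gcongr
      rw [← nsmul_eq_mul, ← Finset.sum_const]
      exact Finset.sum_le_sum fun j _ => hc j
  rcases le_total ((2 + 48 * n : ℝ) ^ 2) (t ^ 2)⁻¹ with h | h
  · rw [min_eq_left h]
    refine key _ _ (m.conj_base base T hT hb t) fun j => (m.n2_le _).trans ?_
    rw [norm_star]
    exact pow_le_pow_left₀ (norm_nonneg _) (m.norm_eta T hl hl' j) 2
  · rw [min_eq_right h]
    refine key _ _ (m.conj_S _ ht.ne') fun j => le_of_eq ?_
    have hη : star (((t⁻¹ : ℝ) : ℂ) • m.S j) = ((t⁻¹ : ℝ) : ℂ) • m.S j := by simp [star_S]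
    rw [hη, n2_smul, S, n2_s, mul_one, inv_pow]

end triangular

end Model

end Crest.Agent.R89
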