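import Mathlib

/-! Product Gaussian measures: Stein's identity for polynomials, density bound, Chernoff bound. -/

set_option autoImplicit false
set_option linter.unusedSectionVars false

open scoped NNReal ENNReal
open MeasureTheory ProbabilityTheory Real

noncomputable section

namespace Crest.Agent.R89

lemma integrable_pow_gauss (v : ℝ≥0) (k : ℕ) :
    Integrable (fun x : ℝ => x ^ k) (gaussianReal 0 v) :=
  integrable_pow_of_mem_interior_integrableExpSet (X := fun x : ℝ => x) (by simp) k

lemma integrable_pdf_pow {v : ℝ≥0} (hv : v ≠ 0) (k : ℕ) :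
    Integrable (fun x : ℝ => gaussianPDFReal 0 v x * x ^ k) := by
  have := integrable_pow_gauss v k
  rw [gaussianReal_of_var_ne_zero _ hv, integrable_withDensity_iff_integrable_smul'
    (measurable_gaussianPDF _ _) (ae_of_all _ fun _ => gaussianPDF_lt_top)] at this
  simpa using this

lemma gauss_moment_succ {v : ℝ≥0} (hv : v ≠ 0) (k : ℕ) :
    ∫ x, x ^ (k + 1) ∂gaussianReal 0 v = v * k * ∫ x, x ^ (k - 1) ∂gaussianReal 0 v := by
  have hv' : (v : ℝ) ≠ 0 := by exact_mod_cast hv
  have hd : ∀ x : ℝ, HasDerivAt (fun x : ℝ => gaussianPDFReal 0 v x * x ^ k)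
      (k * (gaussianPDFReal 0 v x * x ^ (k - 1)) -
        (v : ℝ)⁻¹ * (gaussianPDFReal 0 v x * x ^ (k + 1))) x := by
    intro x
    have h1 : HasDerivAt (fun x : ℝ => -(x - 0) ^ 2 / (2 * v)) (-(x / v)) x := by
      have := ((((hasDerivAt_id x).sub_const 0).pow 2).neg).div_const (2 * (v : ℝ))
      refine this.congr_deriv ?_
      simp; field_simp
    have h2 := ((h1.exp.const_mul (√(2 * π * v))⁻¹).mul (hasDerivAt_pow k x))
    refine h2.congr_deriv ?_
    simp only [gaussianPDFReal]
    field_simp
    ring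
  have h0 := integral_eq_zero_of_hasDerivAt_of_integrable hd
    (((integrable_pdf_pow hv _).const_mul _).sub ((integrable_pdf_pow hv _).const_mul _))
    (integrable_pdf_pow hv k)
  rw [integral_sub ((integrable_pdf_pow hv _).const_mul _) ((integrable_pdf_pow hv _).const_mul _),
    integral_const_mul, integral_const_mul, sub_eq_zero] at h0
  rw [integral_gaussianReal_eq_integral_smul hv, integral_gaussianReal_eq_integral_smul hv]
  simp only [smul_eq_mul]
  rw [mul_assoc, h0]
  field_simp

variable {ι : Type*} [Fintype ι]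

/-- The centred product Gaussian measure. -/
def gam (ι : Type*) [Fintype ι] (v : ℝ≥0) : Measure (ι → ℝ) :=
  Measure.pi fun _ => gaussianReal 0 v

instance (v : ℝ≥0) : IsProbabilityMeasure (gam ι v) := by unfold gam; infer_instance

lemma gam_eq {v : ℝ≥0} (hv : v ≠ 0) : gam ι v =
    volume.withDensity fun x => ENNReal.ofReal (∏ i, gaussianPDFReal 0 v (x i)) := by
  refine Measure.pi_eq fun s hs => ?_
  rw [withDensity_apply _ (MeasurableSet.univ_pi hs), volume_pi, Measure.restrict_pi_pi,
    ← ofReal_integral_eq_lintegral_ofReal, integral_fintype_prod_eq_prod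
      (f := fun _ x => gaussianPDFReal 0 v x), ENNReal.ofReal_prod_of_nonneg]
  · simp only [gaussianReal_apply_eq_integral _ hv]
  · exact fun i _ => integral_nonneg fun x => gaussianPDFReal_nonneg _ _ _
  · exact Integrable.fintype_prod (f := fun _ x => gaussianPDFReal 0 v x)
      fun i => (integrable_gaussianPDFReal _ _).restrict
  · exact ae_of_all _ fun x => Finset.prod_nonneg fun i _ => gaussianPDFReal_nonneg _ _ _

lemma gam_le {v : ℝ≥0} (hv : v ≠ 0) (S : Set (ι → ℝ)) :
    gam ι v S ≤ ENNReal.ofReal ((√(2 * π * v))⁻¹ ^ Fintype.card ι) * volume S := by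
  have : gam ι v ≤ volume.withDensity
      fun _ => ENNReal.ofReal ((√(2 * π * v))⁻¹ ^ Fintype.card ι) := by
    rw [gam_eq hv]
    refine withDensity_mono (ae_of_all _ fun x => ENNReal.ofReal_le_ofReal ?_)
    rw [← Finset.card_univ, ← Finset.prod_const]
    refine Finset.prod_le_prod (fun i _ => gaussianPDFReal_nonneg _ _ _) fun i _ => ?_
    refine mul_le_of_le_one_right (by positivity) (Real.exp_le_one_iff.2 ?_)
    exact div_nonpos_of_nonpos_of_nonneg (neg_nonpos.2 (sq_nonneg _)) (by positivity)
  rw [withDensity_const] at this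
  exact this S

lemma gam_chernoff (v : ℝ≥0) (c : ι → ℝ) (r t : ℝ) (ht : 0 ≤ t) :
    (gam ι v).real {x | r ≤ ∑ i, c i * x i} ≤ rexp (-t * r + v * t ^ 2 * (∑ i, c i ^ 2) / 2) := by
  have h1 : ∀ x : ι → ℝ, rexp (t * ∑ i, c i * x i) = ∏ i, rexp (t * c i * x i) := by
    intro x; rw [Finset.mul_sum, Real.exp_sum]; simp only [mul_assoc]
  refine (measure_ge_le_exp_mul_mgf (X := fun x : ι → ℝ => ∑ i, c i * x i) r ht ?_).trans
    (le_of_eq ?_)
  · simp only [h1]
    exact Integrable.fintype_prod (f := fun i x => rexp (t * c i * x))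
      fun i => integrable_exp_mul_gaussianReal _
  · rw [mgf]
    simp only [h1]
    rw [gam, integral_fintype_prod_eq_prod (f := fun i x => rexp (t * c i * x)), Real.exp_add]
    congr 1
    have h2 : ∀ i, ∫ x, rexp (t * c i * x) ∂gaussianReal 0 v = rexp (v * (t * c i) ^ 2 / 2) := by
      intro i
      have := congrFun (mgf_id_gaussianReal (μ := 0) (v := v)) (t * c i)
      simpa [mgf] using this
    simp only [h2]
    rw [← Real.exp_sum, Finset.mul_sum, Finset.sum_div]
    congr 1
    exact Finset.sum_congr rfl fun i _ => by ring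

open MvPolynomial

/-- Evaluation of a complex polynomial at a real point. -/
def evR (x : ι → ℝ) : MvPolynomial ι ℂ →+* ℂ := eval fun i => (x i : ℂ)

lemma evR_monomial (x : ι → ℝ) (s : ι →₀ ℕ) (c : ℂ) :
    evR x (monomial s c) = c * ∏ i, ((x i ^ s i : ℝ) : ℂ) := by
  rw [evR, eval_monomial, Finsupp.prod_fintype _ _ (by simp)]
  simp

lemma integrable_evR (v : ℝ≥0) (p : MvPolynomial ι ℂ) :
    Integrable (fun x => evR x p) (gam ι v) := by
  induction p using MvPolynomial.induction_on' with
  | monomial s c =>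
    simp only [evR_monomial]
    exact (Integrable.fintype_prod (f := fun i x => ((x ^ s i : ℝ) : ℂ))
      fun i => (integrable_pow_gauss v _).ofReal).const_mul c
  | add p q hp hq => simp only [map_add]; exact hp.add hq

/-- Gaussian expectation of a polynomial. -/
def Ex (ι : Type*) [Fintype ι] (v : ℝ≥0) : MvPolynomial ι ℂ →ₗ[ℂ] ℂ where
  toFun p := ∫ x, evR x p ∂gam ι v
  map_add' p q := by simp only [map_add]; exact integral_add (integrable_evR v p) (integrable_evR v q)
  map_smul' c p := by
    simp only [evR, smul_eval, RingHom.id_apply, smul_eq_mul]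
    exact integral_const_mul _ _

lemma Ex_apply (v : ℝ≥0) (p : MvPolynomial ι ℂ) : Ex ι v p = ∫ x, evR x p ∂gam ι v := rfl

lemma Ex_one (v : ℝ≥0) : Ex ι v 1 = 1 := by simp [Ex_apply]

lemma Ex_monomial (v : ℝ≥0) (s : ι →₀ ℕ) (c : ℂ) :
    Ex ι v (monomial s c) = c * ((∏ i, ∫ x, x ^ s i ∂gaussianReal 0 v : ℝ) : ℂ) := by
  rw [Ex_apply]
  simp only [evR_monomial]
  rw [integral_const_mul, gam,
    integral_fintype_prod_eq_prod (f := fun i x => ((x ^ s i : ℝ) : ℂ))]
  simp only [integral_complex_ofReal, Complex.ofReal_prod]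

/-- Stein's identity. -/
theorem stein {v : ℝ≥0} (hv : v ≠ 0) (i : ι) (p : MvPolynomial ι ℂ) :
    Ex ι v (X i * p) = (v : ℝ) * Ex ι v (pderiv i p) := by
  classical
  induction p using MvPolynomial.induction_on' with
  | monomial s c =>
    rw [X, monomial_mul, pderiv_monomial, Ex_monomial, Ex_monomial,
      ← Finset.mul_prod_erase _ _ (Finset.mem_univ i), ← Finset.mul_prod_erase _ _ (Finset.mem_univ i)]
    have h1 : ∏ j ∈ Finset.univ.erase i, ∫ x, x ^ (Finsupp.single i 1 + s : ι →₀ ℕ) j
        ∂gaussianReal 0 v = ∏ j ∈ Finset.univ.erase i,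
        ∫ x, x ^ (s - Finsupp.single i 1 : ι →₀ ℕ) j ∂gaussianReal 0 v := by
      refine Finset.prod_congr rfl fun j hj => ?_
      have : j ≠ i := Finset.ne_of_mem_erase hj
      simp [Finsupp.single_eq_of_ne this]
    rw [h1]
    simp only [Finsupp.add_apply, Finsupp.single_eq_same, Finsupp.tsub_apply, add_comm 1,
      gauss_moment_succ hv]
    push_cast
    ring
  | add p q hp hq => simp only [mul_add, map_add, hp, hq]

end Crest.Agent.R89
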