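import Mathlib
import Crest.Prelude.Def_FreeEntropy

/-! The orthonormal basis of Hermitian matrices behind `hermitianOfCoords`. -/

set_option autoImplicit false
set_option linter.unusedSectionVars false

open scoped ComplexConjugate
open Crest.OpAlg Matrix

noncomputable section

namespace Crest.Agent.R89

variable {d : ℕ}

/-- Complex-linear extension of `hermitianOfCoords`. -/
def hcC : (Fin d × Fin d → ℂ) →ₗ[ℂ] Matrix (Fin d) (Fin d) ℂ where
  toFun c := fun i j => if i = j then c (i, i)
    else if i < j then (c (i, j) + c (j, i) * Complex.I) / (Real.sqrt 2 : ℂ)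
    else (c (j, i) - c (i, j) * Complex.I) / (Real.sqrt 2 : ℂ)
  map_add' c c' := by
    ext i j
    simp only [Pi.add_apply, Matrix.add_apply]
    split_ifs <;> ring
  map_smul' a c := by
    ext i j
    simp only [Pi.smul_apply, Matrix.smul_apply, smul_eq_mul, RingHom.id_apply]
    split_ifs <;> ring

lemma hcC_apply (c : Fin d × Fin d → ℂ) (i j : Fin d) : hcC c i j = if i = j then c (i, i)
    else if i < j then (c (i, j) + c (j, i) * Complex.I) / (Real.sqrt 2 : ℂ)
    else (c (j, i) - c (i, j) * Complex.I) / (Real.sqrt 2 : ℂ) := rfl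

lemma hermitianOfCoords_eq (a : EuclideanSpace ℝ (Fin d × Fin d)) :
    hermitianOfCoords a = hcC fun p => (a p : ℂ) := rfl

lemma matrixTuple_eq {n : ℕ} (a : EuclideanSpace ℝ (Fin n × (Fin d × Fin d))) (l : Fin n) :
    matrixTuple a l = hcC fun p => (a (l, p) : ℂ) := rfl

lemma star_hcC (c : Fin d × Fin d → ℂ) : star (hcC c) = hcC fun p => conj (c p) := by
  ext i j
  simp only [Matrix.star_apply, hcC_apply, RCLike.star_def]
  rcases lt_trichotomy i j with h | h | h
  · simp [h, h.ne, h.ne', h.not_gt]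
  · simp [h]
  · simp [h, h.ne, h.ne', h.not_gt, sub_eq_add_neg]

lemma star_matrixTuple {n : ℕ} (a : EuclideanSpace ℝ (Fin n × (Fin d × Fin d))) (l : Fin n) :
    star (matrixTuple a l) = matrixTuple a l := by
  simp [matrixTuple_eq, star_hcC]

/-- The basis matrices. -/
def Bm (p : Fin d × Fin d) : Matrix (Fin d) (Fin d) ℂ := hcC (Pi.single p 1)

lemma star_Bm (p : Fin d × Fin d) : star (Bm p) = Bm p := by
  rw [Bm, star_hcC]
  congr 1
  funext q
  by_cases h : q = p <;> simp [h]

lemma hcC_eq_sum (c : Fin d × Fin d → ℂ) : hcC c = ∑ p, c p • Bm p := by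
  simp only [Bm, ← map_smul, ← map_sum]
  congr 1
  funext q
  simp [Pi.single_apply]

lemma Bm_complete (a b c e : Fin d) :
    ∑ p, Bm p a b * Bm p c e = if a = e ∧ b = c then 1 else 0 := by
  have h1 : ∑ p, Bm p a b * Bm p c e = hcC (fun p => Bm p a b) c e := by
    rw [hcC_eq_sum]; simp [Matrix.sum_apply]
  have h2 : (Real.sqrt 2 : ℂ) * (Real.sqrt 2 : ℂ) = 2 := by
    rw [← Complex.ofReal_mul, Real.mul_self_sqrt (by norm_num)]; norm_num
  have h3 : (Real.sqrt 2 : ℂ) ≠ 0 := by
    intro h; rw [h] at h2; norm_num at h2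
  have h4 : ((Real.sqrt 2 : ℂ)⁻¹ - Complex.I / (Real.sqrt 2 : ℂ) * Complex.I) /
      (Real.sqrt 2 : ℂ) = 1 := by
    field_simp; rw [sq, sq, h2]; simp; norm_num
  have h5 : ((Real.sqrt 2 : ℂ)⁻¹ + -Complex.I / (Real.sqrt 2 : ℂ) * Complex.I) /
      (Real.sqrt 2 : ℂ) = 1 := by
    rw [← h4]; ring
  have h6 : (Real.sqrt 2 : ℂ)⁻¹ + Complex.I / (Real.sqrt 2 : ℂ) * Complex.I = 0 := by
    field_simp; simp
  have h7 : (Real.sqrt 2 : ℂ)⁻¹ - -Complex.I / (Real.sqrt 2 : ℂ) * Complex.I = 0 := by
    rw [← h6]; ring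
  rw [h1]
  simp only [Bm, hcC_apply, Pi.single_apply, Prod.ext_iff]
  rcases lt_trichotomy a b with h | h | h <;> rcases lt_trichotomy c e with h' | h' | h' <;>
    simp only [h, h', lt_irrefl, if_true, if_false, ne_of_lt, ne_of_gt, not_lt_of_gt] <;>
    split_ifs <;> first | omega | simp_all

section ring
variable {R : Type*} [CommRing R] [Algebra ℂ R]

/-- The basis matrices over a commutative `ℂ`-algebra. -/
def BmR (R : Type*) [CommRing R] [Algebra ℂ R] (p : Fin d × Fin d) : Matrix (Fin d) (Fin d) R :=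
  (Bm p).map (algebraMap ℂ R)

lemma BmR_complete (a b c e : Fin d) :
    ∑ p, BmR R p a b * BmR R p c e = if a = e ∧ b = c then 1 else 0 := by
  simp only [BmR, Matrix.map_apply, ← map_mul, ← map_sum, Bm_complete]
  split_ifs <;> simp

lemma sum_trace_mul_trace (A C : Matrix (Fin d) (Fin d) R) :
    ∑ p, trace (BmR R p * A) * trace (BmR R p * C) = trace (A * C) := by
  have h : ∀ p : Fin d × Fin d, trace (BmR R p * A) * trace (BmR R p * C) =
      ∑ a, ∑ b, ∑ c, ∑ e, BmR R p a b * BmR R p c e * (A b a * C e c) := by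
    intro p
    simp only [trace, diag, mul_apply, Finset.sum_mul]
    simp only [Finset.mul_sum]
    refine Finset.sum_congr rfl fun a _ => Finset.sum_congr rfl fun b _ =>
      Finset.sum_congr rfl fun c _ => Finset.sum_congr rfl fun e _ => by ring
  simp only [h]
  rw [Finset.sum_comm]
  have h2 : ∀ a, ∑ p : Fin d × Fin d, ∑ b, ∑ c, ∑ e, BmR R p a b * BmR R p c e * (A b a * C e c) =
      ∑ b, A b a * C a b := by
    intro a
    rw [Finset.sum_comm]
    refine Finset.sum_congr rfl fun b _ => ?_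
    rw [Finset.sum_comm]
    simp_rw [Finset.sum_comm (s := (Finset.univ : Finset (Fin d × Fin d))), ← Finset.sum_mul,
      BmR_complete]
    simp [ite_and]
  simp only [h2]
  rw [Finset.sum_comm]
  simp only [trace, diag, mul_apply]

lemma sum_trace_sandwich (A C : Matrix (Fin d) (Fin d) R) :
    ∑ p, trace (BmR R p * A * BmR R p * C) = trace A * trace C := by
  have h : ∀ p : Fin d × Fin d, trace (BmR R p * A * BmR R p * C) =
      ∑ a, ∑ e, ∑ c, ∑ b, BmR R p a b * BmR R p c e * (A b c * C e a) := by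
    intro p
    simp only [trace, diag, mul_apply, Finset.sum_mul]
    refine Finset.sum_congr rfl fun a _ => Finset.sum_congr rfl fun b _ =>
      Finset.sum_congr rfl fun c _ => Finset.sum_congr rfl fun e _ => by ring
  simp only [h]
  rw [Finset.sum_comm]
  have h2 : ∀ a, ∑ p : Fin d × Fin d, ∑ e, ∑ c, ∑ b, BmR R p a b * BmR R p c e * (A b c * C e a) =
      trace A * C a a := by
    intro a
    rw [Finset.sum_comm]
    simp_rw [Finset.sum_comm (s := (Finset.univ : Finset (Fin d × Fin d))), ← Finset.sum_mul,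
      BmR_complete]
    simp [ite_and, trace, Finset.sum_mul]
  simp only [h2]
  rw [← Finset.mul_sum]; rfl

end ring

lemma BmR_complex (p : Fin d × Fin d) : BmR ℂ p = Bm p := by ext; simp [BmR]

lemma hcC_trace (M : Matrix (Fin d) (Fin d) ℂ) : hcC (fun p => trace (Bm p * M)) = M := by
  ext a b
  rw [hcC_eq_sum]
  simp only [Matrix.sum_apply, Matrix.smul_apply, smul_eq_mul, trace, diag, mul_apply,
    Finset.sum_mul]
  rw [Finset.sum_comm]
  have h : ∀ (p : Fin d × Fin d) (x y : Fin d),
      Bm p x y * M y x * Bm p a b = Bm p x y * Bm p a b * M y x := fun _ _ _ => by ring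
  simp_rw [Finset.sum_comm (s := (Finset.univ : Finset (Fin d × Fin d))), h,
    ← Finset.sum_mul, Bm_complete]
  simp [ite_and]

lemma hcC_injective : Function.Injective (hcC (d := d)) := by
  rw [LinearMap.injective_iff_surjective_of_finrank_eq_finrank (by simp [Module.finrank_matrix])]
  exact fun M => ⟨_, hcC_trace M⟩

lemma trace_Bm_hcC (c : Fin d × Fin d → ℂ) (p : Fin d × Fin d) : trace (Bm p * hcC c) = c p :=
  congrFun (hcC_injective (hcC_trace (hcC c))) p

lemma trace_hcC_sq (c : Fin d × Fin d → ℂ) : trace (hcC c * hcC c) = ∑ p, c p ^ 2 := by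
  rw [← sum_trace_mul_trace]
  simp only [BmR_complex, trace_Bm_hcC, sq]

lemma conj_trace_Bm (p : Fin d × Fin d) (W : Matrix (Fin d) (Fin d) ℂ) :
    conj (trace (Bm p * W)) = trace (Bm p * star W) := by
  have := trace_conjTranspose (Bm p * W)
  rw [RCLike.star_def] at this
  rw [← this, ← star_eq_conjTranspose, star_mul, star_Bm, trace_mul_comm]

/-- Real coordinates of a Hermitian matrix. -/
def coords (M : Matrix (Fin d) (Fin d) ℂ) (p : Fin d × Fin d) : ℝ := (trace (Bm p * M)).re

lemma hcC_coords {M : Matrix (Fin d) (Fin d) ℂ} (hM : star M = M) :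
    hcC (fun p => (coords M p : ℂ)) = M := by
  conv_rhs => rw [← hcC_trace M]
  congr 1
  funext p
  exact Complex.conj_eq_iff_re.1 (by rw [conj_trace_Bm, hM])

lemma sum_normSq_trace (W : Matrix (Fin d) (Fin d) ℂ) :
    ∑ p, ‖trace (Bm p * W)‖ ^ 2 = ∑ a, ∑ b, ‖W a b‖ ^ 2 := by
  apply Complex.ofReal_injective
  push_cast
  simp only [← Complex.mul_conj', conj_trace_Bm]
  have := sum_trace_mul_trace W (star W)
  simp only [BmR_complex] at this
  rw [this]
  simp [trace, mul_apply]

end Crest.Agent.R89
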