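import Mathlib
import Crest.Agent.R89.Split
import Crest.Agent.R89.Gauss
import Crest.Agent.R89.Herm

/-! Convergence of the mixed multi-trace moments of independent GUE matrices. -/

set_option autoImplicit false
set_option linter.unusedSectionVars false

open scoped ComplexConjugate NNReal
open Crest.OpAlg Matrix MvPolynomial Filter Topology MeasureTheory

noncomputable section

namespace Crest.Agent.R89

variable {n d : ℕ}

/-- The polynomial ring in the real coordinates. -/
abbrev PR (n d : ℕ) := MvPolynomial (Fin n × (Fin d × Fin d)) ℂ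

/-- The generic Hermitian matrices. -/
def GM (d : ℕ) (l : Fin n) : Matrix (Fin d) (Fin d) (PR n d) :=
  ∑ p, (X (l, p) : PR n d) • BmR (PR n d) p

/-- The Hermitian tuple with coordinates `x`. -/
def mt (x : Fin n × (Fin d × Fin d) → ℝ) : Fin n → Matrix (Fin d) (Fin d) ℂ :=
  matrixTuple (WithLp.toLp 2 x)

lemma mt_eq (x : Fin n × (Fin d × Fin d) → ℝ) (l : Fin n) :
    mt x l = hcC fun p => (x (l, p) : ℂ) := rfl

lemma evR_GM (x : Fin n × (Fin d × Fin d) → ℝ) (l : Fin n) :
    (evR x).mapMatrix (GM d l) = mt x l := by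
  ext a b
  simp [mt_eq, hcC_eq_sum, GM, Matrix.sum_apply, evR, BmR]

lemma evR_trace_wd (x : Fin n × (Fin d × Fin d) → ℝ) (w : List (Fin n)) :
    evR x (trace (wd (GM d) w)) = trace (wd (mt x) w) := by
  rw [AddMonoidHom.map_trace]
  change trace ((evR x).mapMatrix (wd (GM d) w)) = _
  rw [map_wd]
  simp only [evR_GM]

lemma map_pderiv_mul (i : Fin n × (Fin d × Fin d)) (A B : Matrix (Fin d) (Fin d) (PR n d)) :
    (A * B).map (pderiv i) = A.map (pderiv i) * B + A * B.map (pderiv i) := by
  refine Matrix.ext fun a b => ?_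
  simp only [Matrix.map_apply, Matrix.mul_apply, Matrix.add_apply, map_sum, Derivation.leibniz,
    smul_eq_mul, ← Finset.sum_add_distrib]
  exact Finset.sum_congr rfl fun _ _ => by ring

lemma map_pderiv_BmR (i : Fin n × (Fin d × Fin d)) (p : Fin d × Fin d) :
    (BmR (PR n d) p).map (pderiv i) = 0 := by
  refine Matrix.ext fun a b => ?_
  simp [BmR]

lemma map_pderiv_GM (i l : Fin n) (p : Fin d × Fin d) :
    (GM d l).map (pderiv (i, p)) = if l = i then BmR (PR n d) p else 0 := by
  refine Matrix.ext fun a b => ?_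
  simp only [GM, Matrix.map_apply, Matrix.sum_apply, Matrix.smul_apply, smul_eq_mul, map_sum,
    Derivation.leibniz, BmR, pderiv_X, algebraMap_eq, pderiv_C,
    Pi.single_apply, Prod.mk.injEq]
  by_cases h : l = i <;> simp [h]

lemma pderiv_trace (i : Fin n × (Fin d × Fin d)) (A : Matrix (Fin d) (Fin d) (PR n d)) :
    pderiv i (trace A) = trace (A.map (pderiv i)) := by
  simp only [trace, diag, map_sum, Matrix.map_apply]

lemma trace_pderiv_wd (i : Fin n) (p : Fin d × Fin d) (x : Matrix (Fin d) (Fin d) (PR n d))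
    (w : List (Fin n)) : trace (x * (wd (GM d) w).map (pderiv (i, p))) =
      ssum w (fun a y b => if y = i then
        trace (x * wd (GM d) a * BmR (PR n d) p * wd (GM d) b) else 0) := by
  have := leibniz_wd (fun (x y a : Matrix (Fin d) (Fin d) (PR n d)) =>
    trace (x * a.map (pderiv (i, p)) * y)) (fun x y a b => by
      simp only [map_pderiv_mul, mul_add, add_mul, trace_add, mul_assoc]) (GM d) w x 1
  simp only [mul_one, map_pderiv_GM] at this
  rw [this]
  refine ssum_congr fun a y b _ => ?_
  split_ifs <;> simp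

/-- Products of traces of words. -/
def tp (d : ℕ) (ws : List (List (Fin n))) : PR n d := wd (fun w => trace (wd (GM d) w)) ws

lemma tp_cons (w : List (Fin n)) (ws : List (List (Fin n))) :
    tp d (w :: ws) = trace (wd (GM d) w) * tp d ws := wd_cons _ _ _

lemma pderiv_tp (i : Fin n) (p : Fin d × Fin d) (ws : List (List (Fin n))) :
    pderiv (i, p) (tp d ws) = ssum ws (fun pre w post => ssum w (fun a y b => if y = i then
      trace (BmR (PR n d) p * wd (GM d) (b ++ a)) * tp d (pre ++ post) else 0)) := by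
  have := leibniz_wd (fun (x y a : PR n d) => x * pderiv (i, p) a * y) (fun x y a b => by
      simp only [Derivation.leibniz, smul_eq_mul]; ring) (fun w => trace (wd (GM d) w)) ws 1 1
  simp only [mul_one, one_mul] at this
  rw [tp, this]
  refine ssum_congr fun pre w post _ => ?_
  have h := trace_pderiv_wd i p 1 w
  simp only [one_mul] at h
  rw [pderiv_trace, h, mul_ssum, ssum_mul]
  refine ssum_congr fun a y b _ => ?_
  split_ifs
  · rw [mul_assoc (wd (GM d) a), trace_mul_comm (wd (GM d) a), mul_assoc (BmR _ p),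
      tp, wd_append _ pre, wd_append _ b]
    ring
  · simp

lemma Ex_tp_cons {v : ℝ≥0} (hv : v ≠ 0) (i : Fin n) (w : List (Fin n))
    (rest : List (List (Fin n))) :
    Ex _ v (tp d ((i :: w) :: rest)) = (v : ℝ) *
      (ssum w (fun a y b => if y = i then Ex _ v (tp d (a :: b :: rest)) else 0) +
      ssum rest (fun pre w2 post => ssum w2 (fun a y b => if y = i then
        Ex _ v (tp d ((w ++ (b ++ a)) :: (pre ++ post))) else 0))) := by
  have h1 : tp d ((i :: w) :: rest) =
      ∑ p, X (i, p) * (trace (BmR (PR n d) p * wd (GM d) w) * tp d rest) := by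
    rw [tp_cons, wd_cons, GM, Finset.sum_mul, trace_sum, Finset.sum_mul]
    refine Finset.sum_congr rfl fun p _ => ?_
    rw [smul_mul_assoc, trace_smul, smul_eq_mul, mul_assoc]
  rw [h1, map_sum]
  simp only [stein hv]
  rw [← Finset.mul_sum, ← map_sum]
  congr 1
  simp only [Derivation.leibniz, smul_eq_mul, pderiv_tp, pderiv_trace, map_pderiv_mul,
    map_pderiv_BmR, zero_mul, zero_add, trace_pderiv_wd, Finset.sum_add_distrib, map_add]
  rw [add_comm]
  congr 1
  · simp only [mul_ssum, ← ssum_finset_sum, map_ssum]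
    refine ssum_congr fun a y b _ => ?_
    split_ifs
    · rw [← Finset.mul_sum, sum_trace_sandwich, tp_cons, tp_cons]
      congr 1; ring
    · simp
  · simp only [mul_ssum, ← ssum_finset_sum, map_ssum]
    refine ssum_congr fun pre w2 post _ => ssum_congr fun a y b _ => ?_
    split_ifs
    · simp only [← mul_assoc, ← Finset.sum_mul]
      rw [sum_trace_mul_trace, tp_cons, wd_append _ w]
    · simp

/-- Normalised multi-trace moments. -/
def tm (d : ℕ) (ws : List (List (Fin n))) : ℂ :=
  (d : ℂ)⁻¹ ^ ws.length * Ex _ (d : ℝ≥0)⁻¹ (tp d ws)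

lemma tm_nil : tm d ([] : List (List (Fin n))) = 1 := by simp [tm, tp, Ex_one]

lemma tm_nil_cons (hd : d ≠ 0) (ws : List (List (Fin n))) : tm d ([] :: ws) = tm d ws := by
  have hd' : (d : ℂ) ≠ 0 := by exact_mod_cast hd
  have : tp d ([] :: ws) = (d : ℂ) • tp d ws := by
    rw [tp_cons, wd_nil, trace_one, Fintype.card_fin, Algebra.smul_def]; simp
  simp only [tm, this, map_smul, List.length_cons, smul_eq_mul, pow_succ]
  field_simp

lemma tm_cons (hd : d ≠ 0) (i : Fin n) (w : List (Fin n)) (rest : List (List (Fin n))) :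
    tm d ((i :: w) :: rest) =
      ssum w (fun a y b => if y = i then tm d (a :: b :: rest) else 0) +
      (d : ℂ)⁻¹ ^ 2 * ssum rest (fun pre w2 post => ssum w2 (fun a y b => if y = i then
        tm d ((w ++ (b ++ a)) :: (pre ++ post)) else 0)) := by
  have hv : ((d : ℝ≥0)⁻¹) ≠ 0 := by simpa using hd
  rw [tm, Ex_tp_cons hv]
  simp only [mul_add, mul_ssum]
  congr 1
  · refine ssum_congr fun a y b _ => ?_
    split_ifs
    · simp [tm]; ring
    · simp
  · refine ssum_congr fun pre w2 post h => ssum_congr fun a y b _ => ?_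
    split_ifs
    · subst h; simp [tm]; ring
    · simp

theorem tendsto_tm (μ : List (Fin n) → ℂ) (h0 : μ [] = 1)
    (hμ : ∀ i w, μ (i :: w) = ssum w (fun a y b => if y = i then μ a * μ b else 0))
    (ws : List (List (Fin n))) :
    Tendsto (fun d => tm d ws) atTop (𝓝 (wd μ ws)) := by
  induction h : (ws.map fun w => 2 * w.length + 1).sum using Nat.strong_induction_on
    generalizing ws with
  | _ N ih =>
    subst h
    cases ws with
    | nil => simp [tm_nil]
    | cons w rest =>
      cases w with
      | nil =>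
        have := ih _ (by simp) rest rfl
        rw [wd_cons, h0, one_mul]
        refine this.congr' ?_
        filter_upwards [eventually_ne_atTop 0] with d hd
        rw [tm_nil_cons hd]
      | cons i w =>
        have h1 : Tendsto (fun d => ssum w (fun a y b =>
            if y = i then tm d (a :: b :: rest) else 0)) atTop
            (𝓝 (ssum w (fun a y b => if y = i then wd μ (a :: b :: rest) else 0))) := by
          refine tendsto_ssum fun a y b hw => ?_
          split_ifs
          · exact ih _ (by subst hw; simp; omega) _ rfl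
          · exact tendsto_const_nhds
        have h2 : Tendsto (fun d => ssum rest (fun pre w2 post => ssum w2 (fun a y b =>
            if y = i then tm d ((w ++ (b ++ a)) :: (pre ++ post)) else 0))) atTop
            (𝓝 (ssum rest (fun pre w2 post => ssum w2 (fun a y b =>
            if y = i then wd μ ((w ++ (b ++ a)) :: (pre ++ post)) else 0)))) := by
          refine tendsto_ssum fun pre w2 post hr => tendsto_ssum fun a y b hw => ?_
          split_ifs
          · exact ih _ (by subst hw hr; simp; omega) _ rfl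
          · exact tendsto_const_nhds
        have h3 : Tendsto (fun d : ℕ => (d : ℂ)⁻¹ ^ 2) atTop (𝓝 0) := by
          simpa using (tendsto_inv_atTop_nhds_zero_nat (𝕜 := ℂ)).pow 2
        have h4 := h1.add (h3.mul h2)
        rw [zero_mul, add_zero] at h4
        have h5 : wd μ ((i :: w) :: rest) =
            ssum w (fun a y b => if y = i then wd μ (a :: b :: rest) else 0) := by
          rw [wd_cons, hμ, ssum_mul]
          refine ssum_congr fun a y b _ => ?_
          split_ifs <;> simp [mul_assoc]
        rw [h5]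
        refine h4.congr' ?_
        filter_upwards [eventually_ne_atTop 0] with d hd
        rw [tm_cons hd]

/-- Convergence in probability of a normalised trace. -/
theorem tendsto_prob (μ : List (Fin n) → ℂ) (h0 : μ [] = 1)
    (hμ : ∀ i w, μ (i :: w) = ssum w (fun a y b => if y = i then μ a * μ b else 0))
    (hs : ∀ w, μ w.reverse = conj (μ w)) (w : List (Fin n)) {ε : ℝ} (hε : 0 < ε) :
    Tendsto (fun d : ℕ => (gam (Fin n × (Fin d × Fin d)) (d : ℝ≥0)⁻¹).real
      {x | ε ≤ ‖(d : ℂ)⁻¹ * trace (wd (mt x) w) - μ w‖}) atTop (𝓝 0) := by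
  have h1 := tendsto_tm μ h0 hμ [w, w.reverse]
  have h2 := tendsto_tm μ h0 hμ [w]
  have h3 := tendsto_tm μ h0 hμ [w.reverse]
  simp only [wd_cons, wd_nil, mul_one, hs] at h1 h2 h3
  have h4 := ((h1.sub (h2.const_mul (conj (μ w)))).sub (h3.const_mul (μ w))).add_const
    (μ w * conj (μ w))
  have h5 : μ w * conj (μ w) - conj (μ w) * μ w - μ w * conj (μ w) + μ w * conj (μ w) = 0 := by
    ring
  rw [h5] at h4
  have h6 := ((Complex.continuous_re.tendsto _).comp h4).div_const (ε ^ 2)
  simp only [Complex.zero_re, zero_div] at h6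
  refine squeeze_zero (fun d => measureReal_nonneg) (fun d => ?_) h6
  set q : PR n d := ((d : ℂ)⁻¹ ^ 2) • tp d [w, w.reverse] - (conj (μ w) * (d : ℂ)⁻¹) • tp d [w] -
    (μ w * (d : ℂ)⁻¹) • tp d [w.reverse] + (μ w * conj (μ w)) • 1 with hq
  have hq1 : ∀ x, evR x q = ((‖(d : ℂ)⁻¹ * trace (wd (mt x) w) - μ w‖ ^ 2 : ℝ) : ℂ) := by
    intro x
    have hc : trace (wd (mt x) w.reverse) = conj (trace (wd (mt x) w)) := by
      rw [← star_wd (mt x) (star_matrixTuple _), star_eq_conjTranspose, trace_conjTranspose]; rfl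
    have hsm : ∀ (c : ℂ) (p : PR n d), evR x (c • p) = c * evR x p := fun c p => smul_eval _ _ _
    push_cast
    rw [← Complex.mul_conj']
    simp only [hq, tp, wd_cons, wd_nil, mul_one, map_add, map_sub, hsm, map_mul, evR_trace_wd, hc,
      map_one, map_inv₀, map_natCast]
    ring
  have hint : Integrable (fun x : Fin n × (Fin d × Fin d) → ℝ =>
      ‖(d : ℂ)⁻¹ * trace (wd (mt x) w) - μ w‖ ^ 2) (gam _ (d : ℝ≥0)⁻¹) := by
    have := (integrable_evR (d : ℝ≥0)⁻¹ q).re
    simpa only [hq1, RCLike.re_to_complex, Complex.ofReal_re] using this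
  have hm := mul_meas_ge_le_integral_of_nonneg (ae_of_all _ fun x => by positivity) hint (ε ^ 2)
  have he : (∫ x : Fin n × (Fin d × Fin d) → ℝ,
      ‖(d : ℂ)⁻¹ * trace (wd (mt x) w) - μ w‖ ^ 2 ∂(gam _ (d : ℝ≥0)⁻¹)) =
      (Ex _ (d : ℝ≥0)⁻¹ q).re := by
    rw [Ex_apply]
    simp only [hq1]
    rw [integral_complex_ofReal, Complex.ofReal_re]
  have hE : Ex _ (d : ℝ≥0)⁻¹ q = tm d [w, w.reverse] - conj (μ w) * tm d [w] -
      μ w * tm d [w.reverse] + μ w * conj (μ w) := by
    simp only [hq, map_add, map_sub, map_smul, Ex_one, tm, smul_eq_mul, List.length_cons,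
      List.length_nil]
    ring
  rw [he, hE] at hm
  rw [le_div_iff₀ (by positivity), mul_comm]
  refine le_trans (mul_le_mul_of_nonneg_left (measureReal_mono ?_) (by positivity)) hm
  intro x hx
  exact pow_le_pow_left₀ hε.le hx 2

end Crest.Agent.R89
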