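import Mathlib
import Crest.Agent.R89.Fisher

/-! The concrete tuple and the lower bound for its non-microstates free entropy. -/

set_option autoImplicit false
set_option linter.unusedSectionVars false

open scoped ComplexConjugate ComplexOrder ENNReal
open Crest.OpAlg MeasureTheory Set

noncomputable section

namespace Crest.Agent.R89

lemma integral_bound {g : ℝ → ℝ} (hg : Measurable g) {C M K a s1 : ℝ} (hM : 0 ≤ M) (hK : 1 ≤ K)
    (hs1 : 1 ≤ s1) (h1 : ∀ s, 0 < s → g s ≤ C / (1 + s) ^ 2)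
    (h2 : ∀ s, 0 < s → -(M * K) ≤ g s) (h3 : ∀ s, 0 < s → -(M * (s⁻¹ - (1 + s)⁻¹)) ≤ g s)
    (h4 : ∀ s, s1 ≤ s → a / s ^ 2 ≤ g s) :
    IntegrableOn g (Ioi 0) ∧ a / s1 - M * (1 + Real.log (K * s1)) ≤ ∫ s in Ioi 0, g s := by
  have hint : IntegrableOn g (Ioi 0) := by
    refine Integrable.mono' ((integrable_inv_one_add_sq.const_mul (|C| + 4 * M * K)).integrableOn)
      hg.aestronglyMeasurable ?_
    rw [ae_restrict_iff' measurableSet_Ioi]
    refine Filter.Eventually.of_forall fun s (hs : 0 < s) => ?_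
    have hle : ((1 + s) ^ 2)⁻¹ ≤ (1 + s ^ 2)⁻¹ := inv_anti₀ (by positivity) (by nlinarith)
    have hMK : 0 ≤ M * K := by positivity
    rw [Real.norm_eq_abs, abs_le]
    constructor
    · have : -(4 * M * K * ((1 + s) ^ 2)⁻¹) ≤ g s := by
        rcases le_total s 1 with h | h
        · refine le_trans (neg_le_neg ?_) (h2 s hs)
          rw [← div_eq_mul_inv, le_div_iff₀ (by positivity)]
          nlinarith [mul_le_mul_of_nonneg_left (show (1 + s) ^ 2 ≤ 4 by nlinarith) hMK]
        · refine le_trans (neg_le_neg ?_) (h3 s hs)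
          have e1 : s⁻¹ - (1 + s)⁻¹ ≤ 4 * ((1 + s) ^ 2)⁻¹ := by
            rw [← div_eq_mul_inv, le_div_iff₀ (by positivity)]
            have : (s⁻¹ - (1 + s)⁻¹) * (1 + s) ^ 2 = 1 + s⁻¹ := by field_simp; ring
            rw [this]
            have : s⁻¹ ≤ 1 := inv_le_one_of_one_le₀ h
            linarith
          calc M * (s⁻¹ - (1 + s)⁻¹) ≤ M * (4 * ((1 + s) ^ 2)⁻¹) := by gcongr
            _ = 4 * M * 1 * ((1 + s) ^ 2)⁻¹ := by ring
            _ ≤ _ := by gcongr
      refine le_trans (neg_le_neg ?_) this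
      calc _ ≤ 4 * M * K * (1 + s ^ 2)⁻¹ := by gcongr
        _ ≤ _ := by gcongr; linarith [abs_nonneg C]
    · calc g s ≤ |C| * ((1 + s) ^ 2)⁻¹ := (h1 s hs).trans (by
            rw [div_eq_mul_inv]; gcongr; exact le_abs_self C)
        _ ≤ |C| * (1 + s ^ 2)⁻¹ := by gcongr
        _ ≤ _ := by gcongr; linarith
  refine ⟨hint, ?_⟩
  have hK0 : 0 < K := by linarith
  have hs0 : 0 < K⁻¹ := by positivity
  have hs01 : K⁻¹ ≤ s1 := (inv_le_one_of_one_le₀ hK).trans hs1
  have i1 : IntegrableOn g (Ioc 0 K⁻¹) := hint.mono_set fun _ h => h.1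
  have i2 : IntegrableOn g (Ioc K⁻¹ s1) := hint.mono_set fun _ h => hs0.trans h.1
  have i3 : IntegrableOn g (Ioi s1) := hint.mono_set fun _ h => lt_trans (show 0 < s1 by linarith) h
  have i23 : IntegrableOn g (Ioi K⁻¹) := hint.mono_set fun _ h => lt_trans hs0 h
  rw [← Ioc_union_Ioi_eq_Ioi hs0.le, setIntegral_union (Ioc_disjoint_Ioi le_rfl) measurableSet_Ioi
    i1 i23, ← Ioc_union_Ioi_eq_Ioi hs01, setIntegral_union (Ioc_disjoint_Ioi le_rfl)
    measurableSet_Ioi i2 i3]
  have b1 : -M ≤ ∫ s in Ioc 0 K⁻¹, g s := by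
    calc -M = ∫ _s in Ioc 0 K⁻¹, -(M * K) := by
          simp [hs0.le]; field_simp
      _ ≤ _ := setIntegral_mono_on (integrableOn_const (by simp)) i1 measurableSet_Ioc fun s hs => h2 s hs.1
  have b2 : -(M * Real.log (K * s1)) ≤ ∫ s in Ioc K⁻¹ s1, g s := by
    have hc : ContinuousOn (fun s : ℝ => -(M * s⁻¹)) (Icc K⁻¹ s1) :=
      (continuousOn_const.mul (continuousOn_inv₀.mono fun s hs =>
        (hs0.trans_le hs.1).ne')).neg
    calc _ = ∫ s in Ioc K⁻¹ s1, -(M * s⁻¹) := by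
          rw [← intervalIntegral.integral_of_le hs01, intervalIntegral.integral_neg,
            intervalIntegral.integral_const_mul, integral_inv_of_pos hs0 (by linarith)]
          congr 3; field_simp
      _ ≤ _ := setIntegral_mono_on (hc.integrableOn_Icc.mono_set Ioc_subset_Icc_self) i2
          measurableSet_Ioc fun s hs => by
            have hs' : 0 < s := hs0.trans hs.1
            refine le_trans (neg_le_neg ?_) (h3 s hs')
            gcongr
            have : 0 < (1 + s)⁻¹ := by positivity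
            linarith
  have b3 : a / s1 ≤ ∫ s in Ioi s1, g s := by
    have hs1' : 0 < s1 := by linarith
    calc _ = ∫ s in Ioi s1, a * s ^ (-2 : ℝ) := by
          rw [integral_const_mul, integral_Ioi_rpow_of_lt (by norm_num) hs1']
          norm_num [Real.rpow_neg_one, div_eq_mul_inv]
      _ ≤ _ := setIntegral_mono_on
          ((integrableOn_Ioi_rpow_of_lt (by norm_num) hs1').const_mul a) i3 measurableSet_Ioi
          fun s hs => by
            have hs' : 0 < s := hs1'.trans hs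
            refine le_trans (le_of_eq ?_) (h4 s (le_of_lt hs))
            rw [Real.rpow_neg hs'.le, div_eq_mul_inv]; norm_num
  linarith

section data
variable {n q : ℕ} (e : Fin n ≃ Fin q ⊕ (Fin q × Fin q × Fin q))

/-- The base coordinates. -/
def base (j : Fin n) : Prop := (e j).isLeft = true

instance : DecidablePred (base e) := fun j => inferInstanceAs (Decidable ((e j).isLeft = true))

/-- The cubic monomials. -/
def TT (j : Fin n) : List (List (Fin n)) :=
  match e j with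
  | Sum.inl _ => []
  | Sum.inr p => [[e.symm (.inl p.1), e.symm (.inl p.2.1), e.symm (.inl p.2.2)],
      [e.symm (.inl p.2.2), e.symm (.inl p.2.1), e.symm (.inl p.1)]]

lemma TT_inl (a : Fin q) : TT e (e.symm (.inl a)) = [] := by simp [TT]
lemma TT_inr (p : Fin q × Fin q × Fin q) : TT e (e.symm (.inr p)) =
    [[e.symm (.inl p.1), e.symm (.inl p.2.1), e.symm (.inl p.2.2)],
      [e.symm (.inl p.2.2), e.symm (.inl p.2.1), e.symm (.inl p.1)]] := by simp [TT]

lemma cases_e {P : Fin n → Prop} (h1 : ∀ a, P (e.symm (.inl a))) (h2 : ∀ p, P (e.symm (.inr p)))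
    (j : Fin n) : P j := by
  obtain ⟨j, rfl⟩ := e.symm.surjective j
  cases j with
  | inl a => exact h1 a
  | inr p => exact h2 p

lemma TT_base : ∀ k, ∀ μ ∈ TT e k, ∀ c ∈ μ, base e c := by
  refine cases_e e (fun a => by simp [TT_inl]) fun p => ?_
  simp [TT_inr, base]

lemma TT_of_base : ∀ k, base e k → TT e k = [] :=
  cases_e e (fun a _ => TT_inl e a) fun p => by simp [base]

lemma TT_length : ∀ k, (TT e k).length ≤ 2 :=
  cases_e e (fun a => by simp [TT_inl]) fun p => by simp [TT_inr]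

lemma TT_length' : ∀ k, ∀ μ ∈ TT e k, μ.length ≤ 3 :=
  cases_e e (fun a => by simp [TT_inl]) fun p => by simp [TT_inr]

lemma star_TT {A : Type*} [Ring A] [StarRing A] (b : Fin n → A) (hb : ∀ j, star (b j) = b j) :
    ∀ k, star ((TT e k).map (wd b)).sum = ((TT e k).map (wd b)).sum :=
  cases_e e (fun a => by simp [TT_inl]) fun p => by simp [TT_inr, hb, mul_assoc, add_comm]

lemma norm_TT {A : Type*} [NormedRing A] [NormOneClass A] (b : Fin n → A) {R : ℝ}
    (hR : 0 ≤ R) (hb : ∀ j, ‖b j‖ ≤ R) : ∀ k, ‖((TT e k).map (wd b)).sum‖ ≤ 2 * R ^ 3 := by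
  refine cases_e e (fun a => by simp [TT_inl]; positivity) fun p => ?_
  simp only [TT_inr, List.map_cons, List.map_nil, List.sum_cons, List.sum_nil, add_zero, two_mul]
  exact (norm_add_le _ _).trans (add_le_add (norm_wd_le b hb _) (norm_wd_le b hb _))

lemma card_base : (Finset.univ.filter (base e)).card = q := by
  rw [← Finset.card_map e.toEmbedding]
  have : (Finset.univ.filter (base e)).map e.toEmbedding =
      Finset.univ.map ⟨Sum.inl, Sum.inl_injective⟩ := by
    ext x; cases x <;> simp [base]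
  rw [this]; simp

include e in
lemma n_eq : n = q + q ^ 3 := by
  have := Fintype.card_congr e
  simp at this
  rw [this]; ring

lemma card_not_base : (Finset.univ.filter fun j => ¬ base e j).card = q ^ 3 := by
  have := Finset.card_filter_add_card_filter_not (s := Finset.univ) (base e)
  rw [card_base, Finset.card_univ, Fintype.card_fin] at this
  have h2 := n_eq e
  omega

/-- The monomials of the tuple. -/
abbrev Mon : Fin n → List (List (Fin n)) := fun j => [j] :: TT e j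

variable {A : Type} [CStarAlgebra A] (m : Model (Fin n ⊕ Fin n) A)

lemma X_eq (j : Fin n) : m.X (Mon e) j = m.h j + ((TT e j).map (wd m.h)).sum := by
  simp [Model.X]

lemma star_X (j : Fin n) : star (m.X (Mon e) j) = m.X (Mon e) j := by
  rw [X_eq, star_add, m.star_h, star_TT e _ m.star_h]

lemma norm_X (j : Fin n) : ‖m.X (Mon e) j‖ ≤ 18 := by
  have := m.nontrivial
  have hh : ∀ k, ‖m.h k‖ ≤ 2 := fun k => m.norm_s _
  rw [X_eq]
  refine (norm_add_le _ _).trans ?_
  have := norm_TT e m.h (by norm_num) hh j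
  linarith [hh j]

lemma norm_sum_X {k : ℕ} (hq : q = k ^ 2) : ‖∑ j, m.X (Mon e) j‖ ≤ 20 * (k : ℝ) ^ 3 := by
  have := m.nontrivial
  have h1 : ‖∑ j, m.h j‖ ≤ 2 * Real.sqrt n := by
    simpa [Model.h] using m.norm_sum (Finset.univ.map ⟨Sum.inl, Sum.inl_injective⟩)
  have h2 : ‖∑ a : Fin q, m.h (e.symm (.inl a))‖ ≤ 2 * k := by
    have := m.norm_sum (Finset.univ.map ⟨fun a : Fin q => Sum.inl (e.symm (.inl a)),
      Sum.inl_injective.comp (e.symm.injective.comp Sum.inl_injective)⟩)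
    simpa [Model.h, hq] using this
  have h3 : Real.sqrt n ≤ 2 * (k : ℝ) ^ 3 := by
    apply Real.sqrt_le_iff.2 ⟨by positivity, ?_⟩
    have h4 : n ≤ (2 * k ^ 3) ^ 2 := by
      rw [n_eq e, hq]
      have : k ^ 2 ≤ (k ^ 2) ^ 3 := Nat.le_self_pow (by norm_num) _
      nlinarith [Nat.zero_le (k ^ 6)]
    exact_mod_cast h4
  have h4 : ∑ j, ((TT e j).map (wd m.h)).sum =
      (∑ a : Fin q, m.h (e.symm (.inl a))) ^ 3 + (∑ a : Fin q, m.h (e.symm (.inl a))) ^ 3 := by
    rw [← Equiv.sum_comp e.symm, Fintype.sum_sum_type]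
    simp only [TT_inl, TT_inr, List.map_nil, List.sum_nil, Finset.sum_const_zero, zero_add,
      List.map_cons, List.sum_cons, add_zero, wd_cons, wd_nil, mul_one, Finset.sum_add_distrib,
      Fintype.sum_prod_type, pow_three]
    congr 1
    · simp only [← Finset.mul_sum, ← Finset.sum_mul]
    · simp only [← mul_assoc, ← Finset.mul_sum, ← Finset.sum_mul]
  simp only [X_eq, Finset.sum_add_distrib, h4]
  have h5 : ‖(∑ a : Fin q, m.h (e.symm (.inl a))) ^ 3‖ ≤ (2 * k) ^ 3 :=
    (norm_pow_le _ _).trans (pow_le_pow_left₀ (norm_nonneg _) h2 3)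
  refine (norm_add_le _ _).trans ((add_le_add h1 (norm_add_le _ _)).trans ?_)
  nlinarith

lemma one_le_N (M : Fin n → List (List (Fin n))) (u : List (Fin n)) :
    1 ≤ m.N M (u ++ u.reverse) [] := by
  have h1 := m.one_le_τ_rev Sum.inl u
  have h2 := m.ofReal_N M (u ++ u.reverse) []
  simp only [Model.F, wd_nil, mul_one] at h2
  have h3 : (1 : ℂ) ≤ (m.N M (u ++ u.reverse) [] : ℂ) := h2 ▸ h1
  exact_mod_cast h3

lemma sum_n2_X : (n : ℝ) + q ^ 3 ≤ ∑ j, m.n2 (m.X (Mon e) j) := by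
  have h0 : ∀ j, m.n2 (m.X (Mon e) j) = m.N (Mon e) [] [j, j] := by
    intro j
    rw [Model.n2, star_X]
    have := m.ofReal_N (Mon e) [] [j, j]
    simp only [Model.F, wd_nil, mul_one, one_mul, m.Y_zero, wd_cons] at this
    rw [← this, Complex.ofReal_re]
  have h1 : ∀ j, (1 : ℝ) + (if ¬ base e j then 1 else 0) ≤ m.n2 (m.X (Mon e) j) := by
    refine cases_e e (fun a => ?_) fun p => ?_
    · have := one_le_N m (Mon e) [e.symm (.inl a)]
      simpa [h0, Model.N_zero_cons, TT_inl, base] using this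
    · have h1 := one_le_N m (Mon e) [e.symm (.inr p)]
      have h2 := one_le_N m (Mon e) [e.symm (.inl p.1), e.symm (.inl p.2.1), e.symm (.inl p.2.2)]
      have h3 := fun α => m.N_nonneg (Mon e) α []
      simp only [h0, Model.N_zero_cons, TT_inr, base, Equiv.apply_symm_apply, Sum.isLeft_inr,
        List.map_cons, List.map_nil, List.sum_cons, List.sum_nil, List.nil_append,
        List.reverse_cons, List.reverse_nil, List.cons_append, Bool.false_eq_true,
        not_false_eq_true, if_true, add_zero] at h1 h2 ⊢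
      refine add_le_add (le_add_of_le_of_nonneg h1 (add_nonneg (h3 _) (h3 _))) ?_
      exact le_add_of_le_of_nonneg (le_add_of_nonneg_of_le (h3 _) (le_add_of_nonneg_of_le (h3 _) h2))
        (add_nonneg (h3 _) (add_nonneg (h3 _) (h3 _)))
  refine le_trans (le_of_eq ?_) (Finset.sum_le_sum fun j _ => h1 j)
  rw [Finset.sum_add_distrib, Finset.sum_ite, Finset.sum_const, Finset.sum_const, card_not_base]
  simp

lemma heat_eq (s : ℝ) : heatTuple (m.X (Mon e)) m.S s = m.Y (Mon e) (Real.sqrt s) := rfl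

theorem fisher_main {j : ℕ} (hj : 100000 ≤ j) (hq : q = (j ^ 2) ^ 2) :
    (∀ s : ℝ, 0 < s → freeFisher m.τ (heatTuple (m.X (Mon e)) m.S s) < ⊤) ∧
    IntegrableOn (fun s : ℝ => (n : ℝ) / (1 + s) -
      (freeFisher m.τ (heatTuple (m.X (Mon e)) m.S s)).toReal) (Set.Ioi 0) ∧
    1 ≤ ∫ s in Set.Ioi (0 : ℝ), ((n : ℝ) / (1 + s) -
      (freeFisher m.τ (heatTuple (m.X (Mon e)) m.S s)).toReal) := by
  set k := j ^ 2 with hk
  have hn : (n : ℝ) = q + q ^ 3 := by exact_mod_cast n_eq e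
  have hqk : (q : ℝ) = (k : ℝ) ^ 2 := by exact_mod_cast hq
  have hjR : (100000 : ℝ) ≤ j := by exact_mod_cast hj
  have hkj : (k : ℝ) = (j : ℝ) ^ 2 := by exact_mod_cast hk
  have hkR : (10 : ℝ) ^ 10 ≤ k := by rw [hkj]; nlinarith
  have easy : ∀ s : ℝ, 0 < s → freeFisher m.τ (heatTuple (m.X (Mon e)) m.S s) ≤ ENNReal.ofReal
      (q * min ((2 + 48 * n : ℝ) ^ 2) s⁻¹ + q ^ 3 * (1 + s)⁻¹) := by
    intro s hs
    have := m.fisher_le_easy (base e) (TT e) (TT_base e) (TT_of_base e) (star_X e m)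
      (TT_length e) (TT_length' e) (Real.sqrt_pos.2 hs)
    rw [card_base, card_not_base, Real.sq_sqrt hs.le] at this
    exact_mod_cast this
  have fin : ∀ s : ℝ, 0 < s → freeFisher m.τ (heatTuple (m.X (Mon e)) m.S s) < ⊤ :=
    fun s hs => (easy s hs).trans_lt ENNReal.ofReal_lt_top
  have easy' : ∀ s : ℝ, 0 < s → (freeFisher m.τ (heatTuple (m.X (Mon e)) m.S s)).toReal ≤
      q * min ((2 + 48 * n : ℝ) ^ 2) s⁻¹ + q ^ 3 * (1 + s)⁻¹ := fun s hs =>
    ENNReal.toReal_le_of_le_ofReal (by positivity) (easy s hs)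
  have hmeas : Measurable fun s : ℝ => (n : ℝ) / (1 + s) -
      (freeFisher m.τ (heatTuple (m.X (Mon e)) m.S s)).toReal := by
    refine Measurable.sub (by fun_prop) (Measurable.ennreal_toReal ?_)
    refine measurable_fisher m.continuous_τ fun i => ?_
    unfold heatTuple
    fun_prop
  have hk3 : (1440 : ℝ) ≤ (k : ℝ) ^ 3 := by
    calc (1440 : ℝ) ≤ ((10 : ℝ) ^ 10) ^ 3 := by norm_num
      _ ≤ _ := by gcongr
  obtain ⟨h1, h2⟩ := integral_bound hmeas (C := n * 18 ^ 2) (M := q) (K := (2 + 48 * n : ℝ) ^ 2)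
    (a := (k : ℝ) ^ 6 / 2) (s1 := 720 * (k : ℝ) ^ 3) (by positivity)
    (by nlinarith [Nat.cast_nonneg (α := ℝ) n]) (by linarith)
    (fun s hs => by
      have h := m.le_fisher_Y (Mon e) (star_X e m) (norm_X e m) (Real.sqrt_pos.2 hs)
      rw [Real.sq_sqrt hs.le, ← heat_eq, ENNReal.ofReal_le_iff_le_toReal (fin s hs).ne] at h
      refine (sub_le_sub_left h _).trans ?_
      have : (1 + s)⁻¹ - (18 ^ 2 + s)⁻¹ ≤ 18 ^ 2 * ((1 + s) ^ 2)⁻¹ := by
        have e1 : (1 + s)⁻¹ - (18 ^ 2 + s)⁻¹ = (18 ^ 2 - 1) * ((1 + s) * (18 ^ 2 + s))⁻¹ := by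
          field_simp; ring
        rw [e1]
        gcongr
        · norm_num
        · nlinarith
      simp only [div_eq_mul_inv, ← mul_sub, mul_assoc]
      gcongr)
    (fun s hs => by
      have h := easy' s hs
      have h' : (q : ℝ) * min ((2 + 48 * n : ℝ) ^ 2) s⁻¹ ≤ q * (2 + 48 * n : ℝ) ^ 2 := by
        gcongr; exact min_le_left _ _
      have : 0 ≤ (q : ℝ) * (1 + s)⁻¹ := by positivity
      rw [div_eq_mul_inv]
      nth_rewrite 2 [hn]
      linarith)
    (fun s hs => by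
      have h := easy' s hs
      have h' : (q : ℝ) * min ((2 + 48 * n : ℝ) ^ 2) s⁻¹ ≤ q * s⁻¹ := by
        gcongr; exact min_le_right _ _
      rw [div_eq_mul_inv]
      nth_rewrite 1 [hn]
      linarith)
    (fun s hs => by
      have hs0 : 0 < s := by linarith
      have h := m.fisher_le_hard (Mon e) (star_X e m) (Real.sqrt_pos.2 hs0) (norm_X e m)
        (by norm_num) (norm_sum_X e m hq) (by rw [Real.sq_sqrt hs0.le]; linarith)
      rw [Real.sq_sqrt hs0.le, ← heat_eq] at h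
      have hsum := sum_n2_X e m
      have h3 : (n : ℝ) / s - (∑ j, m.n2 (m.X (Mon e) j) - 2 * (18 * (20 * (k : ℝ) ^ 3))) / s ^ 2
          ≤ n / (1 + s) - (k : ℝ) ^ 6 / 2 / s ^ 2 := by
        have e1 : (n : ℝ) / s - n / (1 + s) ≤ n / s ^ 2 := by
          have : (n : ℝ) / s - n / (1 + s) = n / (s * (1 + s)) := by field_simp; ring
          rw [this]; gcongr; nlinarith
        have e2 : ((n : ℝ) + (k : ℝ) ^ 6 / 2) / s ^ 2 ≤
            (∑ j, m.n2 (m.X (Mon e) j) - 2 * (18 * (20 * (k : ℝ) ^ 3))) / s ^ 2 := by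
          gcongr
          rw [hqk] at hsum
          nlinarith
        rw [add_div] at e2
        linarith
      have h4 : 0 ≤ n / (1 + s) - (k : ℝ) ^ 6 / 2 / s ^ 2 := by
        rw [sub_nonneg, div_div, div_le_div_iff₀ (by positivity) (by positivity)]
        have e3 : (k : ℝ) ^ 6 ≤ n := by rw [hn, hqk]; nlinarith [sq_nonneg (k : ℝ)]
        have e4 : 1 + s ≤ 2 * s ^ 2 := by nlinarith
        gcongr
      have h5 := ENNReal.toReal_le_of_le_ofReal h4 (h.trans (ENNReal.ofReal_le_ofReal h3))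
      linarith)
  refine ⟨fin, h1, le_trans ?_ h2⟩
  have hk0 : (0 : ℝ) < k := by linarith [show (0 : ℝ) < 10 ^ 10 by norm_num]
  have hk1 : (1 : ℝ) ≤ k := by linarith [show (1 : ℝ) ≤ 10 ^ 10 by norm_num]
  have hlog : Real.log ((2 + 48 * n : ℝ) ^ 2 * (720 * (k : ℝ) ^ 3)) ≤ 32 * j := by
    have e1 : (2 + 48 * n : ℝ) ≤ 100 * (k : ℝ) ^ 6 := by
      have : (k : ℝ) ^ 2 ≤ (k : ℝ) ^ 6 := pow_le_pow_right₀ hk1 (by norm_num)
      have : (1 : ℝ) ≤ (k : ℝ) ^ 6 := one_le_pow₀ hk1
      rw [hn, hqk]; nlinarith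
    have e2 : (2 + 48 * n : ℝ) ^ 2 * (720 * (k : ℝ) ^ 3) ≤ (j : ℝ) ^ 32 := by
      calc _ ≤ (100 * (k : ℝ) ^ 6) ^ 2 * (720 * (k : ℝ) ^ 3) := by gcongr
        _ = 7200000 * (k : ℝ) ^ 15 := by ring
        _ ≤ k * (k : ℝ) ^ 15 := by gcongr; linarith [show (7200000 : ℝ) ≤ 10 ^ 10 by norm_num]
        _ = _ := by rw [hkj]; ring
    calc _ ≤ Real.log ((j : ℝ) ^ 32) := Real.log_le_log (by positivity) e2
      _ = 32 * Real.log j := by rw [Real.log_pow]; norm_num
      _ ≤ 32 * j := by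
        have := Real.log_le_sub_one_of_pos (show (0 : ℝ) < j by linarith)
        linarith
  have e3 : (k : ℝ) ^ 6 / 2 / (720 * (k : ℝ) ^ 3) = (k : ℝ) ^ 2 * (k / 1440) := by
    field_simp; ring
  have e4 : 2 + 32 * (j : ℝ) ≤ k / 1440 := by rw [hkj]; nlinarith
  have e5 : (1 : ℝ) ≤ (k : ℝ) ^ 2 := one_le_pow₀ hk1
  rw [e3, hqk]
  nlinarith

end data

end Crest.Agent.R89
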