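import Mathlib
import Crest.Agent.R89.GUE

/-! Operator-norm tail bound for GUE matrices (net argument). -/

set_option autoImplicit false
set_option linter.unusedSectionVars false

open scoped ComplexConjugate NNReal InnerProductSpace
open Crest.OpAlg Matrix Filter Topology MeasureTheory

noncomputable section

namespace Crest.Agent.R89

lemma exists_net (E : Type*) [NormedAddCommGroup E] [NormedSpace ℝ E] [FiniteDimensional ℝ E] :
    ∃ s : Finset E, s.card ≤ 5 ^ Module.finrank ℝ E ∧ (∀ c ∈ s, ‖c‖ ≤ 2) ∧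
      ∀ x, ‖x‖ ≤ 2 → ∃ c ∈ s, ‖x - c‖ ≤ 1 := by
  classical
  let S : Set ℕ := {k | ∃ s : Finset E, s.card = k ∧ (∀ c ∈ s, ‖c‖ ≤ 2) ∧
    ∀ c ∈ s, ∀ d ∈ s, c ≠ d → 1 ≤ ‖c - d‖}
  have hne : S.Nonempty := ⟨0, ∅, by simp⟩
  have hbd : BddAbove S := ⟨5 ^ Module.finrank ℝ E, by
    rintro _ ⟨s, rfl, h1, h2⟩
    exact Besicovitch.card_le_of_separated s h1 h2⟩
  obtain ⟨s, hs, h1, h2⟩ := Nat.sSup_mem hne hbd
  refine ⟨s, Besicovitch.card_le_of_separated s h1 h2, h1, fun x hx => ?_⟩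
  by_contra hc
  push Not at hc
  have hxs : x ∉ s := fun h => by have := hc x h; norm_num at this
  have : (insert x s).card ∈ S := by
    refine ⟨_, rfl, ?_, ?_⟩
    · intro c hc'
      rcases Finset.mem_insert.1 hc' with rfl | h
      exacts [hx, h1 c h]
    · intro c hc' d hd hcd
      rcases Finset.mem_insert.1 hc' with rfl | h <;> rcases Finset.mem_insert.1 hd with rfl | h'
      · exact absurd rfl hcd
      · exact (hc d h').le
      · rw [norm_sub_rev]; exact (hc c h).le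
      · exact h2 c h d h' hcd
  have := le_csSup hbd this
  rw [Finset.card_insert_of_notMem hxs, hs] at this
  omega

lemma opNorm_le_of_net {E : Type*} [NormedAddCommGroup E] [InnerProductSpace ℂ E]
    (s : Finset E) (hs : ∀ x, ‖x‖ ≤ 2 → ∃ c ∈ s, ‖x - c‖ ≤ 1) (M : E →L[ℂ] E) {R : ℝ}
    (hR : 0 ≤ R) (h : ∀ u ∈ s, ∀ v ∈ s, (⟪u, M v⟫_ℂ).re ≤ R) : ‖M‖ ≤ R := by
  have h1 : ∀ v ∈ s, ‖M v‖ ≤ R := by
    intro v hv
    by_cases h0 : M v = 0
    · rw [h0, norm_zero]; exact hR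
    have hn : 0 < ‖M v‖ := norm_pos_iff.2 h0
    obtain ⟨c, hc, hc'⟩ := hs (((2 / ‖M v‖ : ℝ) : ℂ) • M v) (by
      rw [norm_smul, Complex.norm_real, Real.norm_of_nonneg (by positivity)]
      exact le_of_eq (by field_simp))
    have e1 : (⟪((2 / ‖M v‖ : ℝ) : ℂ) • M v, M v⟫_ℂ).re = 2 * ‖M v‖ := by
      have h3 : (⟪M v, M v⟫_ℂ).re = ‖M v‖ ^ 2 := inner_self_eq_norm_sq (𝕜 := ℂ) (M v)
      rw [inner_smul_left, Complex.conj_ofReal, Complex.re_ofReal_mul, h3]
      field_simp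
    have e2 : (⟪((2 / ‖M v‖ : ℝ) : ℂ) • M v - c, M v⟫_ℂ).re ≤ ‖M v‖ := by
      refine (Complex.re_le_norm _).trans ((norm_inner_le_norm _ _).trans ?_)
      exact mul_le_of_le_one_left hn.le hc'
    rw [inner_sub_left, Complex.sub_re, e1] at e2
    linarith [h c hc v hv]
  have h2 : ‖M‖ ≤ (R + ‖M‖) / 2 := by
    refine ContinuousLinearMap.opNorm_le_of_unit_norm (by positivity) fun x hx => ?_
    obtain ⟨c, hc, hc'⟩ := hs ((2 : ℂ) • x) (by simp [norm_smul, hx])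
    have e1 : ‖M ((2 : ℂ) • x)‖ = 2 * ‖M x‖ := by simp [norm_smul]
    have e2 : ‖M ((2 : ℂ) • x - c)‖ ≤ ‖M‖ :=
      (M.le_opNorm _).trans (mul_le_of_le_one_right (norm_nonneg _) hc')
    have e3 : ‖M ((2 : ℂ) • x)‖ ≤ ‖M c‖ + ‖M ((2 : ℂ) • x - c)‖ := by
      rw [map_sub]; exact norm_le_norm_add_norm_sub' _ _
    linarith [h1 c hc]
  linarith

variable {n d : ℕ}

lemma inner_clm_eq (M : Matrix (Fin d) (Fin d) ℂ) (u v : EuclideanSpace ℂ (Fin d)) :
    ⟪u, toEuclideanCLM (n := Fin d) (𝕜 := ℂ) M v⟫_ℂ =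
      trace (M * Matrix.of fun a b => v a * conj (u b)) := by
  simp only [PiLp.inner_apply, ofLp_toEuclideanCLM, trace, diag, mul_apply, of_apply, mulVec,
    dotProduct, RCLike.inner_apply, Finset.sum_mul]
  exact Finset.sum_congr rfl fun a _ => Finset.sum_congr rfl fun b _ => by ring

lemma tail_pair (hd : d ≠ 0) (l : Fin n) (u v : EuclideanSpace ℂ (Fin d)) (hu : ‖u‖ ≤ 2)
    (hv : ‖v‖ ≤ 2) : (gam (Fin n × (Fin d × Fin d)) (d : ℝ≥0)⁻¹).real
      {x | 18 ≤ (⟪u, toEuclideanCLM (n := Fin d) (𝕜 := ℂ) (mt x l) v⟫_ℂ).re} ≤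
      Real.exp (-10 * d) := by
  set W : Matrix (Fin d) (Fin d) ℂ := Matrix.of fun a b => v a * conj (u b) with hW
  set c : Fin n × (Fin d × Fin d) → ℝ := fun i =>
    if i.1 = l then (trace (Bm i.2 * W)).re else 0 with hc
  have h1 : ∀ x : Fin n × (Fin d × Fin d) → ℝ,
      (⟪u, toEuclideanCLM (n := Fin d) (𝕜 := ℂ) (mt x l) v⟫_ℂ).re = ∑ i, c i * x i := by
    intro x
    rw [inner_clm_eq, mt_eq, hcC_eq_sum, Finset.sum_mul, trace_sum, Complex.re_sum,
      Fintype.sum_prod_type (α₁ := Fin n)]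
    simp only [hc, ite_mul, zero_mul, Finset.sum_ite_irrel, Finset.sum_const_zero,
      Finset.sum_ite_eq', Finset.mem_univ, if_true, smul_mul_assoc, trace_smul, smul_eq_mul,
      Complex.re_ofReal_mul, ← hW]
    exact Finset.sum_congr rfl fun _ _ => mul_comm _ _
  have h2 : ∑ i, c i ^ 2 ≤ 16 := by
    have e1 : ∑ i, c i ^ 2 = ∑ p, (trace (Bm p * W)).re ^ 2 := by
      rw [Fintype.sum_prod_type]
      simp [hc]
    have e2 : ∑ a, ∑ b, ‖W a b‖ ^ 2 = ‖v‖ ^ 2 * ‖u‖ ^ 2 := by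
      simp only [hW, of_apply, norm_mul, RCLike.norm_conj, mul_pow, EuclideanSpace.norm_sq_eq,
        Finset.sum_mul_sum]
    calc _ ≤ ∑ p, ‖trace (Bm p * W)‖ ^ 2 := by
          rw [e1]
          exact Finset.sum_le_sum fun p _ => sq_le_sq' (by
            linarith [Complex.abs_re_le_norm (trace (Bm p * W)),
              neg_abs_le (trace (Bm p * W)).re]) (Complex.re_le_norm _)
      _ ≤ 2 ^ 2 * 2 ^ 2 := by rw [sum_normSq_trace, e2]; gcongr
      _ = 16 := by norm_num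
  simp only [h1]
  refine (gam_chernoff _ c 18 d (by positivity)).trans (Real.exp_le_exp.2 ?_)
  have hd' : (0 : ℝ) < d := by positivity
  have : (((d : ℝ≥0)⁻¹ : ℝ≥0) : ℝ) * (d : ℝ) ^ 2 = d := by
    simp; field_simp
  rw [this]
  nlinarith

theorem tendsto_tail (l : Fin n) :
    Tendsto (fun d : ℕ => (gam (Fin n × (Fin d × Fin d)) (d : ℝ≥0)⁻¹).real
      {x | 18 < ‖toEuclideanCLM (n := Fin d) (𝕜 := ℂ) (mt x l)‖}) atTop (𝓝 0) := by
  have hq : 625 * Real.exp (-10) < 1 := by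
    have h1 : (2 : ℝ) ≤ Real.exp 1 := by linarith [Real.add_one_le_exp (1 : ℝ)]
    have h2 : (2 : ℝ) ^ 10 ≤ Real.exp 10 := by
      rw [show (10 : ℝ) = (10 : ℕ) * 1 by norm_num, Real.exp_nat_mul]; gcongr
    rw [Real.exp_neg, ← div_eq_mul_inv, div_lt_one (Real.exp_pos _)]
    linarith
  have h0 := tendsto_pow_atTop_nhds_zero_of_lt_one (by positivity) hq
  refine squeeze_zero' (Eventually.of_forall fun d => measureReal_nonneg) ?_ h0
  filter_upwards [eventually_ne_atTop 0] with d hd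
  obtain ⟨s, hs1, hs2, hs3⟩ := exists_net (EuclideanSpace ℂ (Fin d))
  have hsub : {x : Fin n × (Fin d × Fin d) → ℝ |
      18 < ‖toEuclideanCLM (n := Fin d) (𝕜 := ℂ) (mt x l)‖} ⊆ ⋃ p ∈ s ×ˢ s,
      {x | 18 ≤ (⟪p.1, toEuclideanCLM (n := Fin d) (𝕜 := ℂ) (mt x l) p.2⟫_ℂ).re} := by
    intro x hx
    by_contra hc
    simp only [Set.mem_iUnion, Set.mem_ofPred_eq, not_exists, not_le, Finset.mem_product,
      Prod.forall] at hc
    exact absurd (opNorm_le_of_net s hs3 _ (by norm_num) fun u hu v hv => (hc u v ⟨hu, hv⟩).le)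
      (not_le.2 hx)
  refine (measureReal_mono hsub (measure_ne_top _ _)).trans ((measureReal_biUnion_finset_le _ _).trans ?_)
  calc _ ≤ ∑ _p ∈ s ×ˢ s, Real.exp (-10 * d) := Finset.sum_le_sum fun p hp =>
        tail_pair hd l _ _ (hs2 _ (Finset.mem_product.1 hp).1) (hs2 _ (Finset.mem_product.1 hp).2)
    _ = (s.card : ℝ) * s.card * Real.exp (-10 * d) := by simp
    _ ≤ (25 : ℝ) ^ d * 25 ^ d * Real.exp (-10 * d) := by
        have : (s.card : ℝ) ≤ 25 ^ d := by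
          rw [finrank_real_of_complex, finrank_euclideanSpace_fin, pow_mul] at hs1
          exact_mod_cast hs1
        gcongr
    _ = _ := by
        rw [mul_pow, ← mul_pow, mul_comm (-10 : ℝ), Real.exp_nat_mul]; norm_num

end Crest.Agent.R89
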