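import Mathlib
import Crest.Agent.R89.Tail
import Crest.Agent.R89.Star

/-! The microstates free entropy of the triangular tuple. -/

set_option autoImplicit false
set_option linter.unusedSectionVars false

open scoped ComplexConjugate NNReal ENNReal
open Crest.OpAlg Matrix Filter Topology MeasureTheory

noncomputable section

namespace Crest.Agent.R89

lemma shift_preserving {ι : Type*} [Fintype ι] (p : ι → Prop) [DecidablePred p]
    (t : (ι → ℝ) → ι → ℝ) (ht : Measurable t) (h0 : ∀ x i, p i → t x i = 0)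
    (hdep : ∀ x y, (∀ i, p i → x i = y i) → t x = t y) :
    MeasurePreserving (fun x => x + t x) volume volume := by
  set e := MeasurableEquiv.piEquivPiSubtypeProd (fun _ : ι => ℝ) p with he
  have h1 : MeasurePreserving e := volume_preserving_piEquivPiSubtypeProd _ p
  have h2 : MeasurePreserving (fun z : ({i // p i} → ℝ) × ({i // ¬ p i} → ℝ) =>
      (id z.1, z.2 + fun i => t (e.symm (z.1, 0)) i.1)) (volume.prod volume)
      (volume.prod volume) := by
    refine MeasurePreserving.skew_product (MeasurePreserving.id _)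
      (g := fun a c => c + fun i : {i // ¬ p i} => t (e.symm (a, 0)) i.1) ?_ ?_
    · refine measurable_snd.add (measurable_pi_lambda _ fun i => ?_)
      exact (measurable_pi_apply _).comp (ht.comp (e.symm.measurable.comp
        (measurable_fst.prodMk measurable_const)))
    · exact ae_of_all _ fun a => map_add_right_eq_self _ _
  have h3 := (h1.symm e).comp (h2.comp h1)
  suffices h : (fun x => x + t x) = e.symm ∘ (fun z : ({i // p i} → ℝ) × ({i // ¬ p i} → ℝ) =>
      (id z.1, z.2 + fun i => t (e.symm (z.1, 0)) i.1)) ∘ e by rw [h]; exact h3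
  funext x
  have h4 : t (e.symm ((e x).1, 0)) = t x := hdep _ _ fun i hi => by simp [he, hi]
  funext i
  simp only [Function.comp_apply, h4, id]
  by_cases hi : p i
  · simp [he, hi, h0 x i hi]
  · simp [he, hi]

lemma vol_ball_le {E : Type*} [NormedAddCommGroup E] [InnerProductSpace ℝ E]
    [FiniteDimensional ℝ E] [MeasurableSpace E] [BorelSpace E] {b : ℝ} (hb : 0 < b) (ρ : ℝ) :
    volume {a : E | ‖a‖ ^ 2 ≤ ρ} ≤
      ENNReal.ofReal (Real.exp (b * ρ) * (Real.pi / b) ^ (Module.finrank ℝ E / 2 : ℝ)) := by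
  have h1 := GaussianFourier.integral_rexp_neg_mul_sq_norm (V := E) hb
  have h2 : Integrable fun v : E => Real.exp (-b * ‖v‖ ^ 2) :=
    Integrable.of_integral_ne_zero (by rw [h1]; positivity)
  rw [← h1, ← integral_const_mul, ofReal_integral_eq_lintegral_ofReal (h2.const_mul _)
    (ae_of_all _ fun v => by positivity), ← lintegral_indicator_one
      (measurableSet_le (by fun_prop) measurable_const)]
  refine lintegral_mono fun v => ?_
  by_cases hv : v ∈ {a : E | ‖a‖ ^ 2 ≤ ρ}
  · rw [Set.indicator_of_mem hv, Pi.one_apply, ← Real.exp_add, ENNReal.one_le_ofReal,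
      Real.one_le_exp_iff]
    have : ‖v‖ ^ 2 ≤ ρ := hv
    nlinarith
  · simp [Set.indicator_of_notMem hv]

lemma ereal_le {r a c V : ℝ} (hr : 0 ≤ r) (hV : 0 < V) {μ : ℝ≥0∞} (h : μ ≤ ENNReal.ofReal V)
    (hc : r * Real.log V + a ≤ c) : (r : EReal) * μ.log + (a : EReal) ≤ (c : EReal) := by
  have h1 : μ.log ≤ (Real.log V : EReal) := by
    rw [← ENNReal.log_ofReal_of_pos hV]; exact ENNReal.log_le_log h
  calc _ ≤ (r : EReal) * (Real.log V : EReal) + (a : EReal) := by
        gcongr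
    _ ≤ _ := by exact_mod_cast hc

lemma le_ereal {r a c V : ℝ} (hr : 0 ≤ r) (hV : 0 < V) {μ : ℝ≥0∞} (h : ENNReal.ofReal V ≤ μ)
    (hc : c ≤ r * Real.log V + a) : (c : EReal) ≤ (r : EReal) * μ.log + (a : EReal) := by
  have h1 : (Real.log V : EReal) ≤ μ.log := by
    rw [← ENNReal.log_ofReal_of_pos hV]; exact ENNReal.log_le_log h
  calc (c : EReal) ≤ (r : EReal) * (Real.log V : EReal) + (a : EReal) := by exact_mod_cast hc
    _ ≤ _ := by gcongr

section approx
variable {A : Type*} [Ring A] [Algebra ℂ A] {n : ℕ}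

/-- Evaluation as an algebra homomorphism. -/
def pe (Y : Fin n → A) : NCPoly n →ₐ[ℂ] A :=
  MonoidAlgebra.lift ℂ A (FreeMonoid (Fin n)) (FreeMonoid.lift Y)

/-- Control of one polynomial by the word moments. -/
def Good (τ : A →ₗ[ℂ] ℂ) (Y : Fin n → A) (Q : NCPoly n) (δ : ℝ) (p : ℕ × ℝ) : Prop :=
  ∀ (d : ℕ) (M : Fin n → Matrix (Fin d) (Fin d) ℂ),
    (∀ w : FreeMonoid (Fin n), (FreeMonoid.toList w).length ≤ p.1 →
      ‖matrixMoment M w - τ (wordEval Y w)‖ < p.2) →
    ‖(d : ℂ)⁻¹ * trace (pe M Q) - τ (pe Y Q)‖ < δ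

lemma eventually_good (τ : A →ₗ[ℂ] ℂ) (Y : Fin n → A) (Q : NCPoly n) :
    ∀ δ : ℝ, 0 < δ → ∀ᶠ p in atTop ×ˢ 𝓝[>] (0 : ℝ), Good τ Y Q δ p := by
  induction Q using MonoidAlgebra.induction_linear with
  | zero => exact fun δ hδ => Eventually.of_forall fun p d M _ => by simpa using hδ
  | add P Q hP hQ =>
    intro δ hδ
    filter_upwards [hP (δ / 2) (by positivity), hQ (δ / 2) (by positivity)] with p h1 h2 d M hM
    have e : (d : ℂ)⁻¹ * trace (pe M (P + Q)) - τ (pe Y (P + Q)) =
        ((d : ℂ)⁻¹ * trace (pe M P) - τ (pe Y P)) + ((d : ℂ)⁻¹ * trace (pe M Q) - τ (pe Y Q)) := by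
      simp only [map_add, trace_add]; ring
    rw [e]
    linarith [norm_add_le ((d : ℂ)⁻¹ * trace (pe M P) - τ (pe Y P))
      ((d : ℂ)⁻¹ * trace (pe M Q) - τ (pe Y Q)), h1 d M hM, h2 d M hM]
  | single w c =>
    intro δ hδ
    have h1 : ∀ᶠ ε in 𝓝[>] (0 : ℝ), ε < δ / (‖c‖ + 1) :=
      mem_nhdsWithin_of_mem_nhds (Iio_mem_nhds (by positivity))
    filter_upwards [(eventually_ge_atTop (FreeMonoid.toList w).length).prod_mk h1] with p hp d M hM
    have h2 := (hM w hp.1).trans hp.2
    have e : (d : ℂ)⁻¹ * trace (pe M (MonoidAlgebra.single w c)) -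
        τ (pe Y (MonoidAlgebra.single w c)) = c * (matrixMoment M w - τ (wordEval Y w)) := by
      simp only [pe, MonoidAlgebra.lift_single, trace_smul, map_smul, smul_eq_mul, matrixMoment,
        wordEval]
      ring
    rw [e, norm_mul]
    rw [lt_div_iff₀ (by positivity)] at h2
    nlinarith [norm_nonneg (matrixMoment M w - τ (wordEval Y w))]

lemma exists_good (τ : A →ₗ[ℂ] ℂ) (Y : Fin n → A) {ι : Type*} (s : Finset ι) (Q : ι → NCPoly n)
    {δ : ℝ} (hδ : 0 < δ) : ∃ (m : ℕ) (ε : ℝ), 0 < ε ∧ ∀ i ∈ s, Good τ Y (Q i) δ (m, ε) := by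
  have h1 : ∀ᶠ p in atTop ×ˢ 𝓝[>] (0 : ℝ), ∀ i ∈ s, Good τ Y (Q i) δ p :=
    (eventually_all_finset s).2 fun i _ => eventually_good τ Y (Q i) δ hδ
  have h2 : ∀ᶠ p in (atTop : Filter ℕ) ×ˢ 𝓝[>] (0 : ℝ), 0 < p.2 :=
    tendsto_snd.eventually self_mem_nhdsWithin
  obtain ⟨p, hp⟩ := (h2.and h1).exists
  exact ⟨p.1, p.2, hp⟩

/-- The letters. -/
def Xs (j : Fin n) : NCPoly n := MonoidAlgebra.single (FreeMonoid.of j) 1

/-- The triangular substitution. -/
def shP (T : Fin n → List (List (Fin n))) (σ : ℝ) (b : Fin n → A) (j : Fin n) : A :=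
  b j + (σ : ℂ) • ((T j).map (wd b)).sum

lemma pe_shP (T : Fin n → List (List (Fin n))) (σ : ℝ) (Y : Fin n → A) (j : Fin n) :
    pe Y (shP T σ Xs j) = shP T σ Y j := by
  have : ∀ j, pe Y (Xs j) = Y j := fun j => by simp [pe, Xs]
  simp only [shP, map_add, map_smul, map_list_sum, List.map_map, Function.comp_def, map_wd, this]

end approx

section shift
variable {n q d : ℕ} (e : Fin n ≃ Fin q ⊕ (Fin q × Fin q × Fin q))

/-- The triangular shift in coordinates. -/
def sh (σ : ℝ) (x : Fin n × (Fin d × Fin d) → ℝ) : Fin n × (Fin d × Fin d) → ℝ :=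
  x + fun i => σ * coords (((TT e i.1).map (wd (mt x))).sum) i.2

lemma mt_sh (σ : ℝ) (x : Fin n × (Fin d × Fin d) → ℝ) :
    mt (sh e σ x) = shP (TT e) σ (mt x) := by
  funext l
  rw [shP, ← hcC_coords (star_TT e (mt x) (star_matrixTuple _) l), mt_eq, mt_eq, ← map_smul,
    ← map_add]
  congr 1
  funext p
  simp [sh]

lemma continuous_mt (l : Fin n) : Continuous fun x : Fin n × (Fin d × Fin d) → ℝ => mt x l := by
  simp only [mt_eq, hcC_eq_sum]
  fun_prop

lemma sh_preserving (σ : ℝ) : MeasurePreserving (sh (d := d) e σ) volume volume := by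
  refine shift_preserving (fun i => base e i.1) _ ?_ ?_ ?_
  · refine Continuous.measurable (continuous_pi fun i => continuous_const.mul ?_)
    refine Complex.continuous_re.comp (Continuous.matrix_trace (continuous_const.matrix_mul ?_))
    exact continuous_list_sum (f := fun μ x => wd (mt x) μ) _
      fun μ _ => continuous_wd continuous_mt μ
  · intro x i hi
    simp [TT_of_base e _ hi, coords]
  · intro x y h
    funext i
    congr 3
    refine List.map_congr_left fun μ hμ => wd_congr fun c hc => ?_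
    rw [mt_eq, mt_eq]
    congr 1
    funext p
    rw [h (c, p) (TT_base e _ μ hμ c hc)]

lemma norm_sq_toLp (x : Fin n × (Fin d × Fin d) → ℝ) :
    ‖(WithLp.toLp 2 x : EuclideanSpace ℝ _)‖ ^ 2 = ∑ l, (trace (mt x l * mt x l)).re := by
  rw [EuclideanSpace.real_norm_sq_eq, Fintype.sum_prod_type (α₁ := Fin n)]
  refine Finset.sum_congr rfl fun l _ => ?_
  rw [mt_eq, trace_hcC_sq]
  norm_cast

variable {A : Type} [CStarAlgebra A] (m : Model (Fin n ⊕ Fin n) A)

lemma shP_h : shP (TT e) 1 m.h = m.X (Mon e) := by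
  funext j; simp [shP, X_eq]

lemma shP_X : shP (TT e) (-1) (m.X (Mon e)) = m.h := by
  funext j
  have : (TT e j).map (wd (m.X (Mon e))) = (TT e j).map (wd m.h) :=
    List.map_congr_left fun μ hμ => wd_congr fun c hc => by
      simp [X_eq, TT_of_base e _ (TT_base e _ μ hμ c hc)]
  rw [shP, this, X_eq]
  simp

theorem chi_le : chi m.τ (m.X (Mon e)) ≤
    (((n : ℝ) / 2 * Real.log (2 * Real.pi * Real.exp 1) : ℝ) : EReal) := by
  refine iSup₂_le fun R _ => ?_
  rw [← EReal.le_of_forall_lt_iff_le]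
  intro z hz
  have hz' : (n : ℝ) / 2 * Real.log (2 * Real.pi * Real.exp 1) < z := by exact_mod_cast hz
  obtain ⟨δ, hδ, hδ'⟩ : ∃ δ : ℝ, 0 < δ ∧
      (n : ℝ) / 2 * Real.log (2 * Real.pi * Real.exp 1) + n * δ / 2 ≤ z := by
    refine ⟨(z - (n : ℝ) / 2 * Real.log (2 * Real.pi * Real.exp 1)) / (n + 1),
      div_pos (by linarith) (by positivity), ?_⟩
    have : (n : ℝ) * ((z - (n : ℝ) / 2 * Real.log (2 * Real.pi * Real.exp 1)) / (n + 1)) ≤
        z - (n : ℝ) / 2 * Real.log (2 * Real.pi * Real.exp 1) := by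
      rw [← mul_div_assoc, div_le_iff₀ (by positivity)]; nlinarith
    linarith
  obtain ⟨m0, ε, hε, hg⟩ := exists_good m.τ (m.X (Mon e)) Finset.univ
    (fun j => shP (TT e) (-1) Xs j * shP (TT e) (-1) Xs j) hδ
  refine (iInf_le _ m0).trans ((iInf₂_le ε hε).trans (limsup_le_of_le (h := ?_)))
  filter_upwards [eventually_ne_atTop 0] with d hd
  have hd' : (0 : ℝ) < d := by positivity
  have hsub : microstates m.τ (m.X (Mon e)) R m0 d ε ⊆
      (WithLp.toLp 2 ∘ sh e (-1) ∘ WithLp.ofLp) ⁻¹'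
        {a : EuclideanSpace ℝ (Fin n × (Fin d × Fin d)) | ‖a‖ ^ 2 ≤ n * (d * (1 + δ))} := by
    intro a ha
    simp only [Set.mem_preimage, Function.comp_apply, Set.mem_ofPred_eq, norm_sq_toLp, mt_sh]
    calc _ ≤ ∑ _l : Fin n, (d * (1 + δ) : ℝ) := Finset.sum_le_sum fun l _ => ?_
      _ = _ := by simp
    have h1 := hg l (Finset.mem_univ _) d _ ha.2
    rw [map_mul, map_mul, pe_shP, pe_shP, shP_X, Model.h, m.τ_s_s, if_pos rfl] at h1
    have h2 := (Complex.re_le_norm _).trans h1.le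
    rw [Complex.sub_re, ← Complex.ofReal_natCast, ← Complex.ofReal_inv, Complex.re_ofReal_mul,
      Complex.one_re, sub_le_iff_le_add, inv_mul_le_iff₀ hd', add_comm] at h2
    exact h2
  have hmp := (PiLp.volume_preserving_toLp _).comp ((sh_preserving (d := d) e (-1)).comp
    (PiLp.volume_preserving_ofLp _))
  have hvol := ((measure_mono hsub).trans (hmp.measure_preimage_le _)).trans
    (vol_ball_le (b := d / 2) (by positivity) _)
  refine ereal_le (by positivity) (by positivity) hvol (le_trans (le_of_eq ?_) hδ')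
  rw [Real.log_mul (by positivity) (by positivity), Real.log_exp, Real.log_rpow (by positivity),
    finrank_euclideanSpace, Real.log_mul (by positivity) (by positivity), Real.log_exp,
    show Real.pi / (d / 2) = 2 * Real.pi / d by field_simp, Real.log_div (by positivity) hd'.ne']
  simp only [Fintype.card_prod, Fintype.card_fin]
  push_cast
  field_simp
  ring

theorem bot_lt_chi : ⊥ < chi m.τ (m.X (Mon e)) := by
  classical
  refine lt_of_lt_of_le (EReal.bot_lt_coe (-1)) (le_iSup₂_of_le (18 + 2 * 18 ^ 3 : ℝ)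
    (by norm_num) (le_iInf fun m0 => le_iInf₂ fun ε hε => ?_))
  obtain ⟨m1, ε1, hε1, hg⟩ := exists_good m.τ m.h
    ((Finset.range (m0 + 1)).biUnion (words (Fin n))) (fun w => wd (shP (TT e) 1 Xs) w) hε
  refine le_limsup_of_frequently_le (Eventually.frequently ?_)
  set W := (Finset.range (m1 + 1)).biUnion (words (Fin n)) with hW
  have ht := (tendsto_finsetSum Finset.univ fun (l : Fin n) _ => tendsto_tail l).add
    (tendsto_finsetSum W fun w _ => tendsto_prob (fun w => m.τ (wd m.h w)) m.τ_one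
      (fun i w => by
        have := m.SD (Sum.inl i) Sum.inl w
        simp only [Sum.inl.injEq] at this
        rw [wd_cons]; exact this)
      (fun w => by rw [← star_wd _ m.star_h, m.τ_star]) w hε1)
  simp only [Finset.sum_const_zero, add_zero] at ht
  filter_upwards [eventually_ne_atTop 0, ht.eventually (ge_mem_nhds one_half_pos)] with d hd hsm
  have hd' : (0 : ℝ) < d := by positivity
  have hd1 : (1 : ℝ) ≤ d := by exact_mod_cast Nat.one_le_iff_ne_zero.2 hd
  have hv : ((d : ℝ≥0)⁻¹) ≠ 0 := by simpa using hd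
  have : Nonempty (Fin d) := ⟨⟨0, Nat.pos_of_ne_zero hd⟩⟩
  set Γ : Set (Fin n × (Fin d × Fin d) → ℝ) :=
    (WithLp.toLp 2 ∘ sh e 1) ⁻¹' microstates m.τ (m.X (Mon e)) (18 + 2 * 18 ^ 3) m0 d ε with hΓ
  have hcov : Set.univ ⊆ Γ ∪ ((⋃ l ∈ (Finset.univ : Finset (Fin n)),
      {x | 18 < ‖toEuclideanCLM (n := Fin d) (𝕜 := ℂ) (mt x l)‖}) ∪
      ⋃ w ∈ W, {x | ε1 ≤ ‖(d : ℂ)⁻¹ * trace (wd (mt x) w) - m.τ (wd m.h w)‖}) := by
    intro x _
    by_contra hc
    simp only [Set.mem_union, Set.mem_iUnion, Set.mem_ofPred_eq, not_or, not_exists, not_lt,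
      not_le, Finset.mem_univ, forall_const] at hc
    obtain ⟨h1, h2, h3⟩ := hc
    refine h1 ⟨fun l => ?_, fun w hw => ?_⟩
    · change ‖toEuclideanCLM (n := Fin d) (𝕜 := ℂ) (mt (sh e 1 x) l)‖ ≤ _
      rw [mt_sh, shP, Complex.ofReal_one, one_smul, map_add, map_list_sum, List.map_map]
      refine (norm_add_le _ _).trans (add_le_add (h2 l) ?_)
      have := norm_TT e (fun j => toEuclideanCLM (n := Fin d) (𝕜 := ℂ) (mt x j)) (by norm_num)
        h2 l
      simpa only [Function.comp_def, map_wd] using this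
    · have h4 := hg (FreeMonoid.toList w) (by simpa [Nat.lt_succ_iff] using hw) d (mt x)
        (fun w' hw' => by
          rw [matrixMoment, wordEval_eq, wordEval_eq]
          exact h3 _ (by simpa [hW, Nat.lt_succ_iff] using hw'))
      simp only [map_wd, pe_shP, shP_h] at h4
      rw [matrixMoment, wordEval_eq, wordEval_eq]
      change ‖_ * trace (wd (mt (sh e 1 x)) _) - _‖ < _
      rw [mt_sh]
      exact h4
  have hprob : 1 / 2 ≤ (gam (Fin n × (Fin d × Fin d)) (d : ℝ≥0)⁻¹).real Γ := by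
    have h1 := (measureReal_mono (μ := gam (Fin n × (Fin d × Fin d)) (d : ℝ≥0)⁻¹) hcov
      (measure_ne_top _ _)).trans ((measureReal_union_le _ _).trans (add_le_add le_rfl
      ((measureReal_union_le _ _).trans (add_le_add (measureReal_biUnion_finset_le _ _)
        (measureReal_biUnion_finset_le _ _)))))
    rw [probReal_univ] at h1
    linarith
  set C : ℝ := (√(2 * Real.pi * ((d : ℝ≥0)⁻¹ : ℝ≥0)))⁻¹ ^
    Fintype.card (Fin n × (Fin d × Fin d)) with hC
  have hC0 : 0 < C := by positivity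
  have hmp := (PiLp.volume_preserving_toLp _).comp (sh_preserving (d := d) e 1)
  have hvol : ENNReal.ofReal (1 / 2 / C) ≤
      volume (microstates m.τ (m.X (Mon e)) (18 + 2 * 18 ^ 3) m0 d ε) := by
    refine le_trans ?_ (hmp.measure_preimage_le _)
    rw [ENNReal.ofReal_div_of_pos hC0]
    refine ENNReal.div_le_of_le_mul' (le_trans ?_ (gam_le hv Γ))
    exact ENNReal.ofReal_le_of_le_toReal hprob
  refine le_ereal (by positivity) (by positivity) hvol ?_
  have hlog : Real.log C ≤ n * (d * d) * (Real.log d / 2) := by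
    rw [hC, Real.log_pow, Real.log_inv, Real.log_sqrt (by positivity)]
    simp only [Fintype.card_prod, Fintype.card_fin, NNReal.coe_inv, NNReal.coe_natCast]
    push_cast
    gcongr
    rw [Real.log_mul (by positivity) (by positivity), Real.log_inv]
    have := Real.log_nonneg (show 1 ≤ 2 * Real.pi by linarith [Real.pi_gt_three])
    linarith
  rw [Real.log_div (by norm_num) hC0.ne', one_div, Real.log_inv]
  have h2 : Real.log 2 ≤ 1 := by linarith [Real.log_le_sub_one_of_pos (show (0 : ℝ) < 2 by norm_num)]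
  have h3 : ((d : ℝ) ^ 2)⁻¹ * (-1 - n * (d * d) * (Real.log d / 2)) ≤
      ((d : ℝ) ^ 2)⁻¹ * (-Real.log 2 - Real.log C) := by gcongr
  have h4 : ((d : ℝ) ^ 2)⁻¹ * (-1 - n * (d * d) * (Real.log d / 2)) =
      -((d : ℝ) ^ 2)⁻¹ - n / 2 * Real.log d := by field_simp
  have h5 : ((d : ℝ) ^ 2)⁻¹ ≤ 1 := inv_le_one_of_one_le₀ (one_le_pow₀ hd1)
  linarith

end shift

end Crest.Agent.R89
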