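import Mathlib
import Crest.Agent.R89.Vol

/-! Semicircular moments and freeness in the Fock model. -/

set_option autoImplicit false
set_option linter.unusedSectionVars false

open Crest.OpAlg Finset

noncomputable section

namespace Crest.Agent.R89

lemma sum_antidiagonal_even (f : ℕ → ℂ) (hf : ∀ k, f (2 * k + 1) = 0) (g : ℕ → ℂ) (k : ℕ) :
    ∑ ij ∈ antidiagonal (2 * k), f ij.1 * g ij.2 =
      ∑ ij ∈ antidiagonal k, f (2 * ij.1) * g (2 * ij.2) := by
  induction k generalizing g with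
  | zero => simp
  | succ k ih =>
    rw [show 2 * (k + 1) = 2 * k + 1 + 1 by ring, Finset.Nat.sum_antidiagonal_succ',
      Finset.Nat.sum_antidiagonal_succ', Finset.Nat.sum_antidiagonal_succ', hf,
      ih (fun j => g (j + 1 + 1))]
    simp [mul_add, add_assoc]

namespace Model

variable {I : Type} [DecidableEq I] {A : Type} [CStarAlgebra A] (m : Model I A)

lemma τ_pow_succ (i : I) (k : ℕ) : m.τ (m.s i ^ (k + 2)) =
    ∑ ij ∈ antidiagonal k, m.τ (m.s i ^ ij.1) * m.τ (m.s i ^ ij.2) := by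
  have := m.SD i id (List.replicate (k + 1) i)
  rw [ssum_replicate] at this
  simpa [wd_replicate, ← pow_succ'] using this

lemma τ_pow_odd (i : I) (k : ℕ) : m.τ (m.s i ^ (2 * k + 1)) = 0 := by
  induction k using Nat.strong_induction_on with
  | _ k ih =>
    cases k with
    | zero => simpa using m.SD i id []
    | succ k =>
      rw [show 2 * (k + 1) + 1 = 2 * k + 1 + 2 by ring, τ_pow_succ]
      refine Finset.sum_eq_zero fun ij hij => ?_
      rw [HasAntidiagonal.mem_antidiagonal] at hij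
      rcases Nat.even_or_odd' ij.1 with ⟨a, ha | ha⟩
      · rw [show ij.2 = 2 * (k - a) + 1 by omega, ih _ (by omega), mul_zero]
      · rw [ha, ih _ (by omega), zero_mul]

lemma τ_pow_even (i : I) (k : ℕ) : m.τ (m.s i ^ (2 * k)) = catalan k := by
  induction k using Nat.strong_induction_on with
  | _ k ih =>
    cases k with
    | zero => simp [m.τ_one]
    | succ k =>
      rw [show 2 * (k + 1) = 2 * k + 2 by ring, τ_pow_succ,
        sum_antidiagonal_even (fun j => m.τ (m.s i ^ j)) (m.τ_pow_odd i) (fun j => m.τ (m.s i ^ j)),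
        catalan_succ']
      push_cast
      refine Finset.sum_congr rfl fun ij hij => ?_
      rw [HasAntidiagonal.mem_antidiagonal] at hij
      rw [ih _ (by omega), ih _ (by omega)]

end Model

variable {n : ℕ} {A : Type} [CStarAlgebra A] (m : Model (Fin n ⊕ Fin n) A)

lemma semicircular : IsStandardSemicircular m.τ m.S :=
  ⟨fun i => m.star_S i, fun _ k => ⟨m.τ_pow_even _ k, m.τ_pow_odd _ k⟩⟩

lemma isFree (M : Fin n → List (List (Fin n))) : IsFreeFamily m.τ (withNoise (m.X M) m.S) := by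
  intro l hl hc h0
  have := m.free (Sum.elim (fun _ => none) some)
    (l.map fun p => (p.1, polyEval (withNoise (m.X M) m.S p.1) p.2)) (by simpa using hl)
    (by rw [List.isChain_map]; exact hc) ?_ ?_
  · simpa [Function.comp_def] using this
  · simp only [List.mem_map]
    rintro _ ⟨p, _, rfl⟩
    refine polyEval_mem _ _ _ fun i => ?_
    cases hp : p.1 with
    | none =>
      refine list_sum_mem ?_
      simp only [List.mem_map]
      rintro _ ⟨μ, _, rfl⟩
      refine list_prod_mem ?_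
      simp only [List.mem_map]
      rintro _ ⟨c, _, rfl⟩
      exact Algebra.subset_adjoin ⟨Sum.inl c, rfl, rfl⟩
    | some j => exact Algebra.subset_adjoin ⟨Sum.inr j, rfl, rfl⟩
  · simp only [List.mem_map]
    rintro _ ⟨p, hp, rfl⟩
    exact h0 p hp

theorem main {j : ℕ} (hj : 100000 ≤ j) :
    ∃ (A : Type) (_ : CStarAlgebra A) (τ : A →ₗ[ℂ] ℂ) (n : ℕ) (X S : Fin n → A),
      IsFaithfulTracialState τ ∧ 2 ≤ n ∧ (∀ i, IsSelfAdjoint (X i)) ∧
      IsStandardSemicircular τ S ∧ IsFreeFamily τ (withNoise X S) ∧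
      (∀ s : ℝ, 0 < s → freeFisher τ (heatTuple X S s) < ⊤) ∧
      MeasureTheory.IntegrableOn
        (fun s : ℝ => (n : ℝ) / (1 + s) - (freeFisher τ (heatTuple X S s)).toReal)
        (Set.Ioi 0) ∧
      ⊥ < chi τ X ∧ chi τ X ≤ ((chiStar τ X S - 1 / 2 : ℝ) : EReal) := by
  obtain ⟨q, hq⟩ : ∃ q, q = (j ^ 2) ^ 2 := ⟨_, rfl⟩
  obtain ⟨n, ⟨e⟩⟩ : ∃ n, Nonempty (Fin n ≃ Fin q ⊕ (Fin q × Fin q × Fin q)) :=
    ⟨_, ⟨(Fintype.equivFin _).symm⟩⟩
  obtain ⟨A, hA, ⟨m⟩⟩ := exists_model (Fin n ⊕ Fin n)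
  obtain ⟨h1, h2, h3⟩ := fisher_main e m hj hq
  refine ⟨A, hA, m.τ, n, m.X (Mon e), m.S, m.faithful, ?_, star_X e m, semicircular m,
    isFree m _, h1, h2, bot_lt_chi e m, (chi_le e m).trans ?_⟩
  · have h4 : 1 ≤ q := by rw [hq]; exact Nat.one_le_pow _ _ (Nat.pow_pos (by omega))
    have h5 : 1 ≤ q ^ 3 := Nat.one_le_pow _ _ h4
    rw [n_eq e]; omega
  · rw [EReal.coe_le_coe_iff, chiStar]
    linarith

end Crest.Agent.R89
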